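import Vale.Agent.P249.UP.ZGt2

/-!
# P249: the random map, `p > 2` (`SpecZGt`)
-/

set_option linter.all false

open scoped BigOperators

namespace Vale.Agent.P249.UP

open Vale.Agent.P249.H75

namespace ZG

theorem exists_pow_two {W : ℝ} (hW : 1 ≤ W) : ∃ m0 : ℕ, W ≤ 2 ^ m0 ∧ (2 : ℝ) ^ m0 ≤ 2 * W := by
  obtain ⟨n, h1, h2⟩ := exists_nat_pow_near hW (by norm_num : (1 : ℝ) < 2)
  refine ⟨n + 1, h2.le, ?_⟩
  rw [pow_succ]
  linarith

theorem kap_rpow {p : ℝ} (hp : 2 < p) (m0 : ℕ) :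
    kap p m0 ^ (p / 2) = ((2 : ℝ) ^ m0) ^ (-((p - 2) / 2)) := by
  unfold kap
  rw [← Real.rpow_mul (by norm_num), ← Real.rpow_natCast, ← Real.rpow_mul (by norm_num)]
  congr 1
  have : p ≠ 0 := by linarith
  field_simp

theorem exp_le_one_add_two_mul {x : ℝ} (h0 : 0 ≤ x) (h1 : x ≤ 1) : Real.exp x ≤ 1 + 2 * x := by
  have h2 := Real.abs_exp_sub_one_sub_id_le (x := x) (by rwa [abs_of_nonneg h0])
  have h3 := (abs_le.1 h2).2
  nlinarith

/-- choice of `m0` -/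
theorem choose_m0 {p C₁ b₂ δ : ℝ} (hp : 2 < p) (hC₁ : 1 ≤ C₁) (hb₂ : 1 ≤ b₂) (hδ : 0 < δ)
    (hδ1 : δ ≤ 1) : ∃ m0 : ℕ,
      (1 / 2 : ℝ) ^ m0 * Real.exp p ≤ δ / (4 * p) ∧
      C₁ * 2 ^ p * kap p m0 ^ (p / 2) * b₂ ^ p ≤ (δ / (4 * p)) ^ p / 2 ∧
      (2 : ℝ) ^ m0 ≤ 2 * ((2 * C₁ * (8 * p) ^ p) ^ (2 / (p - 2)) + 4 * p * Real.exp p) *
        (b₂ / δ) ^ (2 * p / (p - 2) + 1) := by
  have hp0 : 0 < p := by linarith
  have hp2 : 0 < p - 2 := by linarith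
  set q : ℝ := b₂ / δ with hq
  have hq1 : 1 ≤ q := by
    rw [hq, le_div_iff₀ hδ]; linarith
  have hq0 : 0 < q := by linarith
  set Wa : ℝ := (2 * C₁ * (8 * p * q) ^ p) ^ (2 / (p - 2)) with hWa
  set Wb : ℝ := 4 * p * Real.exp p / δ with hWb
  have hep : 1 ≤ Real.exp p := Real.one_le_exp hp0.le
  have hbase : 1 ≤ 2 * C₁ * (8 * p * q) ^ p := by
    have h1 : 1 ≤ (8 * p * q) ^ p := Real.one_le_rpow (by nlinarith) hp0.le
    nlinarith
  have hWa1 : 1 ≤ Wa := Real.one_le_rpow hbase (by positivity)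
  have hWb1 : 1 ≤ Wb := by
    rw [hWb, le_div_iff₀ hδ]
    nlinarith
  obtain ⟨m0, hm1, hm2⟩ := exists_pow_two (W := max Wa Wb) (le_max_of_le_left hWa1)
  have hmpos : (0 : ℝ) < 2 ^ m0 := by positivity
  refine ⟨m0, ?_, ?_, ?_⟩
  · have h1 : Wb ≤ 2 ^ m0 := (le_max_right _ _).trans hm1
    rw [one_div, inv_pow, inv_mul_le_iff₀ hmpos]
    calc Real.exp p = Wb * (δ / (4 * p)) := by rw [hWb]; field_simp
      _ ≤ 2 ^ m0 * (δ / (4 * p)) := mul_le_mul_of_nonneg_right h1 (by positivity)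
  · have h1 : Wa ≤ 2 ^ m0 := (le_max_left _ _).trans hm1
    rw [kap_rpow hp]
    have h2 : ((2 : ℝ) ^ m0) ^ (-((p - 2) / 2)) ≤ (2 * C₁ * (8 * p * q) ^ p)⁻¹ := by
      calc ((2 : ℝ) ^ m0) ^ (-((p - 2) / 2)) ≤ Wa ^ (-((p - 2) / 2)) :=
            Real.rpow_le_rpow_of_nonpos (by linarith) h1 (by linarith)
        _ = (2 * C₁ * (8 * p * q) ^ p)⁻¹ := by
            rw [hWa, ← Real.rpow_mul (by linarith), ← Real.rpow_neg_one]
            congr 1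
            field_simp
    have hb0 : 0 < b₂ := by linarith
    calc C₁ * 2 ^ p * ((2 : ℝ) ^ m0) ^ (-((p - 2) / 2)) * b₂ ^ p
        ≤ C₁ * 2 ^ p * (2 * C₁ * (8 * p * q) ^ p)⁻¹ * b₂ ^ p := by gcongr
      _ = (δ / (4 * p)) ^ p / 2 := by
          have h3 : (8 * p * q) ^ p = (2 * b₂) ^ p / (δ / (4 * p)) ^ p := by
            rw [← Real.div_rpow (by positivity) (by positivity)]
            congr 1
            rw [hq]
            field_simp
            norm_num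
          have h4 : (2 * b₂) ^ p = 2 ^ p * b₂ ^ p := Real.mul_rpow (by norm_num) hb0.le
          rw [h3, h4]
          have h5 : (0 : ℝ) < 2 ^ p := by positivity
          have h6 : 0 < b₂ ^ p := by positivity
          have h7 : 0 < (δ / (4 * p)) ^ p := by positivity
          have h8 : 0 < C₁ := by linarith
          field_simp
  · refine hm2.trans ?_
    have h1 : max Wa Wb ≤ Wa + Wb := max_le (by linarith) (by linarith)
    have h2 : Wa = (2 * C₁ * (8 * p) ^ p) ^ (2 / (p - 2)) * q ^ (2 * p / (p - 2)) := by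
      rw [hWa, Real.mul_rpow (by positivity) hq0.le, ← mul_assoc,
        Real.mul_rpow (by positivity) (by positivity), ← Real.rpow_mul hq0.le]
      congr 2
      field_simp
    have h3 : q ^ (2 * p / (p - 2)) ≤ q ^ (2 * p / (p - 2) + 1) :=
      Real.rpow_le_rpow_of_exponent_le hq1 (by linarith)
    have h4 : Wb ≤ 4 * p * Real.exp p * q ^ (2 * p / (p - 2) + 1) := by
      have h5 : 1 / δ ≤ q := by
        rw [hq]
        gcongr
      have h6 : q ≤ q ^ (2 * p / (p - 2) + 1) := by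
        have h7 : 0 ≤ 2 * p / (p - 2) := by positivity
        calc q = q ^ (1 : ℝ) := (Real.rpow_one q).symm
          _ ≤ q ^ (2 * p / (p - 2) + 1) := Real.rpow_le_rpow_of_exponent_le hq1 (by linarith)
      calc Wb = 4 * p * Real.exp p * (1 / δ) := by rw [hWb]; ring
        _ ≤ 4 * p * Real.exp p * q ^ (2 * p / (p - 2) + 1) := by
            apply mul_le_mul_of_nonneg_left (h5.trans h6) (by positivity)
    have h5 : 0 ≤ (2 * C₁ * (8 * p) ^ p) ^ (2 / (p - 2)) := by positivity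
    have h6 := mul_le_mul_of_nonneg_left h3 h5
    calc 2 * max Wa Wb ≤ 2 * (Wa + Wb) := by linarith
      _ ≤ 2 * ((2 * C₁ * (8 * p) ^ p) ^ (2 / (p - 2)) * q ^ (2 * p / (p - 2) + 1) +
          4 * p * Real.exp p * q ^ (2 * p / (p - 2) + 1)) := by
          rw [h2]
          linarith
      _ = _ := by ring

/-- numbers, `p`-th moment of the error -/
theorem real_b1 {p C₁ b₁ δ : ℝ} (hp : 2 < p) (hC₁ : 1 ≤ C₁) (hb₁ : 0 ≤ b₁) (hδ : 0 < δ)
    (h : 8 * p * C₁ * b₁ ≤ δ) : C₁ * b₁ ^ p ≤ (δ / (4 * p)) ^ p / 2 := by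
  have hp0 : 0 < p := by linarith
  have hβ0 : 0 < δ / (4 * p) := by positivity
  have h6 : b₁ ≤ δ / (4 * p) / (2 * C₁) := by
    rw [le_div_iff₀ (by positivity), le_div_iff₀ (by positivity)]
    linarith
  have h7 : b₁ ^ p ≤ (δ / (4 * p)) ^ p / (2 * C₁) ^ p := by
    rw [← Real.div_rpow hβ0.le (by positivity)]
    exact Real.rpow_le_rpow hb₁ h6 hp0.le
  have h8 : 2 * C₁ ≤ (2 * C₁) ^ p := by
    calc 2 * C₁ = (2 * C₁) ^ (1 : ℝ) := (Real.rpow_one _).symm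
      _ ≤ (2 * C₁) ^ p := Real.rpow_le_rpow_of_exponent_le (by linarith) (by linarith)
  have h9 : 0 < (δ / (4 * p)) ^ p := by positivity
  calc C₁ * b₁ ^ p ≤ C₁ * ((δ / (4 * p)) ^ p / (2 * C₁) ^ p) :=
        mul_le_mul_of_nonneg_left h7 (by linarith)
    _ ≤ C₁ * ((δ / (4 * p)) ^ p / (2 * C₁)) :=
        mul_le_mul_of_nonneg_left (div_le_div_of_nonneg_left h9.le (by positivity) h8) (by linarith)
    _ = (δ / (4 * p)) ^ p / 2 := by
        have : C₁ ≠ 0 := by positivity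
        field_simp

theorem real_E {p C₁ b₁ b₂ β κ d X : ℝ} (hb₁ : 0 ≤ b₁) (hb₂ : 0 ≤ b₂) (hβ : 0 ≤ β) (hd : 0 ≤ d)
    (hX : X ≤ C₁ * ((b₁ * d) ^ p + 2 ^ p * κ * (b₂ * d) ^ p)) (h1 : C₁ * b₁ ^ p ≤ β ^ p / 2)
    (h2 : C₁ * 2 ^ p * κ * b₂ ^ p ≤ β ^ p / 2) : X ≤ (β * d) ^ p := by
  refine hX.trans ?_
  rw [Real.mul_rpow hb₁ hd, Real.mul_rpow hb₂ hd, Real.mul_rpow hβ hd]
  have h6 : 0 ≤ d ^ p := Real.rpow_nonneg hd _
  calc C₁ * (b₁ ^ p * d ^ p + 2 ^ p * κ * (b₂ ^ p * d ^ p))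
      = (C₁ * b₁ ^ p + C₁ * 2 ^ p * κ * b₂ ^ p) * d ^ p := by ring
    _ ≤ (β ^ p / 2 + β ^ p / 2) * d ^ p := mul_le_mul_of_nonneg_right (add_le_add h1 h2) h6
    _ = β ^ p * d ^ p := by ring

/-- numbers, `2 p`-th moment, combination of the two parts -/
theorem real_comb {J P M0 τ B2 B3 D2 E0 C₂ X Y : ℝ} (hP : 0 < P) {P' : ℝ} (hP' : P' ≤ P)
    (hP'0 : 0 ≤ P')
    (hJ : 0 ≤ J) (hM0 : 1 ≤ M0) (hτ : 1 ≤ τ) (hB2 : 1 ≤ B2) (hB3 : 1 ≤ B3) (hD2 : 0 ≤ D2)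
    (hE0 : 0 < E0) (hC₂ : 1 ≤ C₂)
    (hX : X ≤ J * P' * (E0 * (2 * M0 * τ * D2)))
    (hY : Y ≤ J * P * (C₂ * (2 * M0 * (B3 * D2) + B2 * D2))) :
    X + Y ≤ (2 * E0 + 3 * C₂) * (J * P * (M0 * τ * (B3 * B2) * D2)) := by
  have h8 : (1 : ℝ) ≤ B3 * B2 := one_le_mul_of_one_le_of_one_le hB3 hB2
  have h9 : M0 * τ * D2 ≤ M0 * τ * (B3 * B2) * D2 := by
    apply mul_le_mul_of_nonneg_right _ hD2
    exact le_mul_of_one_le_right (by positivity) h8
  have h7 : X ≤ (2 * E0) * (J * P * (M0 * τ * (B3 * B2) * D2)) := by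
    refine hX.trans ?_
    calc J * P' * (E0 * (2 * M0 * τ * D2)) = (2 * E0) * (J * P' * (M0 * τ * D2)) := by ring
      _ ≤ (2 * E0) * (J * P * (M0 * τ * (B3 * B2) * D2)) := by
          apply mul_le_mul_of_nonneg_left _ (by positivity)
          apply mul_le_mul _ h9 (by positivity) (by positivity)
          exact mul_le_mul_of_nonneg_left hP' hJ
  have h10 : M0 * B3 ≤ M0 * τ * (B3 * B2) := by
    calc M0 * B3 ≤ M0 * B3 * (τ * B2) :=
          le_mul_of_one_le_right (by positivity) (one_le_mul_of_one_le_of_one_le hτ hB2)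
      _ = _ := by ring
  have h11 : B2 ≤ M0 * τ * (B3 * B2) := by
    calc B2 ≤ B2 * (M0 * τ * B3) :=
          le_mul_of_one_le_right (by positivity)
            (one_le_mul_of_one_le_of_one_le (one_le_mul_of_one_le_of_one_le hM0 hτ) hB3)
      _ = _ := by ring
  have h12 := mul_le_mul_of_nonneg_right h10 hD2
  have h13 := mul_le_mul_of_nonneg_right h11 hD2
  have h14 : 2 * M0 * (B3 * D2) + B2 * D2 ≤ 3 * (M0 * τ * (B3 * B2) * D2) := by
    have : 2 * M0 * (B3 * D2) = 2 * (M0 * B3 * D2) := by ring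
    rw [this]
    linarith
  have h15 : Y ≤ (3 * C₂) * (J * P * (M0 * τ * (B3 * B2) * D2)) := by
    refine hY.trans ?_
    calc J * P * (C₂ * (2 * M0 * (B3 * D2) + B2 * D2))
        ≤ J * P * (C₂ * (3 * (M0 * τ * (B3 * B2) * D2))) :=
          mul_le_mul_of_nonneg_left (mul_le_mul_of_nonneg_left h14 (by linarith)) (by positivity)
      _ = _ := by ring
  calc X + Y ≤ _ := add_le_add h7 h15
    _ = _ := by ring

/-- numbers, `2 p`-th moment, final form -/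
theorem real_fin {p A A2 c₁ C J M0 b₂ δ : ℝ} (hp : 2 < p) (hA : 0 < A) (hA2 : 0 < A2)
    (hc : 1 ≤ c₁) (hC : A * A2 + c₁ + 2 * p + 1 ≤ C) (hJ1 : 1 ≤ J) (hM0 : 0 < M0)
    (hb₂ : 1 ≤ b₂) (hδ : 0 < δ) (hδ1 : δ ≤ 1) (hM : M0 ≤ A2 * (b₂ / δ) ^ c₁) :
    A * J * M0 * b₂ ^ (2 * p) ≤ (C * (J * b₂ / δ) ^ C) ^ (2 * p) := by
  set q : ℝ := b₂ / δ with hq
  have hAA : 0 < A * A2 := mul_pos hA hA2
  have hC1 : 1 ≤ C := by linarith
  have hq1 : 1 ≤ q := by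
    rw [hq, le_div_iff₀ hδ]; linarith
  have hq0 : 0 < q := by linarith
  have hJq : J * b₂ / δ = J * q := by rw [hq]; ring
  rw [hJq]
  have hJq1 : 1 ≤ J * q := one_le_mul_of_one_le_of_one_le hJ1 hq1
  have hb2q : b₂ ≤ q := by
    rw [hq, le_div_iff₀ hδ]; nlinarith
  have hJ0 : 0 < J := by linarith
  have h11 : b₂ ^ (2 * p) ≤ q ^ (2 * p) := Real.rpow_le_rpow (by linarith) hb2q (by linarith)
  have h12 : J * (q ^ c₁ * q ^ (2 * p)) ≤ (J * q) ^ C := by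
    calc J * (q ^ c₁ * q ^ (2 * p)) = J ^ (1 : ℝ) * (q ^ (c₁ + 2 * p)) := by
          rw [Real.rpow_one, Real.rpow_add hq0]
      _ ≤ J ^ C * q ^ C := by
          apply mul_le_mul
          · exact Real.rpow_le_rpow_of_exponent_le hJ1 hC1
          · apply Real.rpow_le_rpow_of_exponent_le hq1
            linarith
          · positivity
          · positivity
      _ = (J * q) ^ C := (Real.mul_rpow hJ0.le hq0.le).symm
  have h13 : A * A2 ≤ C := by linarith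
  have h10 : A * J * M0 * b₂ ^ (2 * p) ≤ C * (J * q) ^ C := by
    calc A * J * M0 * b₂ ^ (2 * p) ≤ A * J * (A2 * q ^ c₁) * q ^ (2 * p) := by
          apply mul_le_mul _ h11 (by positivity) (by positivity)
          exact mul_le_mul_of_nonneg_left hM (by positivity)
      _ = (A * A2) * (J * (q ^ c₁ * q ^ (2 * p))) := by ring
      _ ≤ C * (J * q) ^ C := mul_le_mul h13 h12 (by positivity) (by linarith)
  have h14 : 1 ≤ C * (J * q) ^ C :=
    one_le_mul_of_one_le_of_one_le hC1 (Real.one_le_rpow hJq1 (by linarith))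
  refine h10.trans ?_
  calc C * (J * q) ^ C = (C * (J * q) ^ C) ^ (1 : ℝ) := (Real.rpow_one _).symm
    _ ≤ _ := Real.rpow_le_rpow_of_exponent_le h14 (by linarith)

/-- numbers, `2 p`-th moment, splitting the power -/
theorem real_split {p Z b₃ d : ℝ} (T : ℕ) {W : ℝ} (hp : 2 < p) (hZ : 0 ≤ Z) (hb₃ : 1 ≤ b₃)
    (hd : 0 ≤ d) (hW0 : 0 ≤ W) (hW : W ≤ Z ^ (2 * p)) :
    W * ((4 : ℝ) ^ T) ^ p * b₃ ^ (2 * p) * d ^ (2 * p) ≤ (Z * 4 ^ T * b₃ * d) ^ (2 * p) := by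
  have h4T : (1 : ℝ) ≤ 4 ^ T := one_le_pow₀ (by norm_num)
  have h12 : ((4 : ℝ) ^ T) ^ p ≤ ((4 : ℝ) ^ T) ^ (2 * p) :=
    Real.rpow_le_rpow_of_exponent_le h4T (by linarith)
  rw [Real.mul_rpow (by positivity) hd, Real.mul_rpow (by positivity) (by linarith),
    Real.mul_rpow hZ (by positivity)]
  apply mul_le_mul_of_nonneg_right _ (Real.rpow_nonneg hd _)
  apply mul_le_mul_of_nonneg_right _ (by positivity)
  exact mul_le_mul hW h12 (by positivity) (by positivity)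

/-- the `2 p`-th moment -/
theorem moment_2p {p : ℝ} (hp : 2 < p) {C₂ : ℝ} (hC₂ : 1 ≤ C₂)
    {V ι : Type} [Fintype ι] [DecidableEq ι] {T H : ℕ} (hT : 0 < T)
    (hcard : Fintype.card ι ≤ 2 ^ H) (x : V → ι → ℝ) (F : V → Fin (H + 2 * T) × ι → ℝ) (m0 : ℕ)
    (u v : V) {b₂ b₃ : ℝ} (hb₂ : 1 ≤ b₂) (hb₃ : 1 ≤ b₃)
    (hE : MO p (2 * p) T (H + 2 * T) (mj p m0 (H + 2 * T)) m0 (EE p T H x F u v) ≤
      ((H + 2 * T : ℕ) : ℝ) * 4 ^ p * (C₂ * (2 * 2 ^ m0 * (b₃ * nm p (x u - x v)) ^ (2 * p) +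
        (b₂ * nm p (x u - x v)) ^ (2 * p)))) :
    MO p (2 * p) T (H + 2 * T) (mj p m0 (H + 2 * T)) m0 (fun k => F u k - F v k) ≤
      (2 ^ (2 * p - 1) * (4 ^ p * (2 * Real.exp (Real.exp (2 * p - 1) - 1) + 3 * C₂))) *
        ((H + 2 * T : ℕ) : ℝ) * 2 ^ m0 * b₂ ^ (2 * p) * ((4 : ℝ) ^ T) ^ p * b₃ ^ (2 * p) *
          nm p (x u - x v) ^ (2 * p) := by
  have hp0 : 0 < p := by linarith
  have hd0 : 0 ≤ nm p (x u - x v) := nm_nonneg _
  have hFE : (fun k => F u k - F v k) = fun k => DD p T H x u v k - EE p T H x F u v k := by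
    funext k
    unfold EE
    ring
  rw [hFE]
  have h4 := MO_sub_le (r := 2 * p) (by linarith) hp0 hT (H + 2 * T) (mj p m0 (H + 2 * T)) m0
    (DD p T H x u v) (EE p T H x F u v)
  have h5 := MO_D_2p (x := x) (u := u) (v := v) hp hT hcard m0
  rw [Real.mul_rpow (by linarith : 0 ≤ b₃) hd0, Real.mul_rpow (by linarith : 0 ≤ b₂) hd0] at hE
  have h24 : (2 : ℝ) ^ p ≤ 4 ^ p := Real.rpow_le_rpow (by norm_num) (by norm_num) hp0.le
  have h4T : (1 : ℝ) ≤ 4 ^ T := one_le_pow₀ (by norm_num)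
  have h6 := real_comb (P := 4 ^ p) (P' := 2 ^ p) (by positivity) h24 (by positivity)
    (J := ((H + 2 * T : ℕ) : ℝ)) (Nat.cast_nonneg _)
    (M0 := 2 ^ m0) (one_le_pow₀ (by norm_num)) (τ := ((4 : ℝ) ^ T) ^ p)
    (Real.one_le_rpow h4T hp0.le) (B2 := b₂ ^ (2 * p)) (Real.one_le_rpow hb₂ (by linarith))
    (B3 := b₃ ^ (2 * p)) (Real.one_le_rpow hb₃ (by linarith)) (D2 := nm p (x u - x v) ^ (2 * p))
    (Real.rpow_nonneg hd0 _) (Real.exp_pos _) hC₂ h5 hE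
  refine h4.trans ((mul_le_mul_of_nonneg_left h6 (by positivity)).trans (le_of_eq ?_))
  ring

end ZG

open ZG in
/-- **the random map for `p > 2`** -/
theorem specZGt (p : ℝ) (hp : 2 < p) : SpecZGt p := by
  classical
  have hp0 : 0 < p := by linarith
  obtain ⟨C₁, hC₁, hE1⟩ := MO_E_p hp
  obtain ⟨C₂, hC₂, hE2⟩ := MO_E_2p hp
  obtain ⟨A, hA⟩ : ∃ A : ℝ, A = 2 ^ (2 * p - 1) * (4 ^ p *
    (2 * Real.exp (Real.exp (2 * p - 1) - 1) + 3 * C₂)) := ⟨_, rfl⟩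
  obtain ⟨A2, hA2⟩ : ∃ A2 : ℝ, A2 = 2 * ((2 * C₁ * (8 * p) ^ p) ^ (2 / (p - 2)) +
    4 * p * Real.exp p) := ⟨_, rfl⟩
  have hA0 : 0 < A := by rw [hA]; positivity
  have hA20 : 0 < A2 := by rw [hA2]; positivity
  obtain ⟨c₁, hc₁⟩ : ∃ c₁ : ℝ, c₁ = 2 * p / (p - 2) + 1 := ⟨_, rfl⟩
  have hc10 : 1 ≤ c₁ := by
    have : 0 ≤ 2 * p / (p - 2) := div_nonneg (by linarith) (by linarith)
    linarith
  have hAA : 0 < A * A2 := mul_pos hA0 hA20
  have hpC : 0 < p * C₁ := by positivity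
  refine ⟨8 * p * C₁ + (A * A2 + c₁ + 2 * p + 1), by nlinarith, ?_⟩
  intro V ι _ _ T H hT hcard x F b₁ b₂ b₃ δ hb₁ hb₂ hb₃ hδ hδ1 hCb h1 h2 h3
  obtain ⟨m0, hm1, hm2, hm3⟩ := choose_m0 hp hC₁ hb₂ hδ hδ1
  rw [← hA2, ← hc₁] at hm3
  obtain ⟨M, g, hM, hmom, hpm⟩ := z_main (by linarith : 1 < p) hT hcard x F m0
  refine ⟨M, g, hM, ?_⟩
  intro u v
  have hd0 : 0 ≤ nm p (x u - x v) := nm_nonneg _
  obtain ⟨β, hβ⟩ : ∃ β : ℝ, β = δ / (4 * p) := ⟨_, rfl⟩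
  have hβ0 : 0 < β := by rw [hβ]; positivity
  have hβ4 : p * β = δ / 4 := by rw [hβ]; field_simp
  rw [← hβ] at hm1 hm2
  have hη0 : (0 : ℝ) < (1 / 2) ^ m0 := by positivity
  have hη : (1 / 2 : ℝ) ^ m0 ≤ β := by
    have h4 : 1 ≤ Real.exp p := Real.one_le_exp hp0.le
    have h5 : (1 / 2 : ℝ) ^ m0 * 1 ≤ (1 / 2 : ℝ) ^ m0 * Real.exp p :=
      mul_le_mul_of_nonneg_left h4 hη0.le
    linarith
  have hβs : β ≤ 1 / 8 := by
    rw [hβ, div_le_iff₀ (by positivity)]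
    nlinarith
  have hK : ∀ j : Fin (H + 2 * T), mj p m0 j ≤ mj p m0 (H + 2 * T) :=
    fun j => mj_mono hp0.le j.2.le
  have hEp : MO p p T (H + 2 * T) (mj p m0 (H + 2 * T)) m0 (EE p T H x F u v) ≤
      (β * nm p (x u - x v)) ^ p := by
    have h4 := hE1 hT (H + 2 * T) (mj p m0 (H + 2 * T)) m0 hK (EE p T H x F u v)
      (mul_nonneg hb₁ hd0) (mul_nonneg (by linarith : 0 ≤ b₂) hd0) (h1 u v) (h2 u v)
    have h5 : C₁ * b₁ ^ p ≤ β ^ p / 2 := by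
      rw [hβ]
      refine real_b1 hp hC₁ hb₁ hδ (le_trans (mul_le_mul_of_nonneg_right ?_ hb₁) hCb)
      linarith
    exact real_E hb₁ (by linarith) hβ0.le hd0 h4 h5 hm2
  have hpm' := hpm u v β hβ0.le (by linarith) hEp
  have hdp : 0 ≤ nm p (x u - x v) ^ p := Real.rpow_nonneg hd0 _
  refine ⟨?_, ?_, ?_⟩
  · refine le_trans (mul_le_mul_of_nonneg_right ?_ hdp) hpm'.1
    have h4 : p * (1 / 2 : ℝ) ^ m0 ≤ p * β := mul_le_mul_of_nonneg_left hη hp0.le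
    linarith
  · refine hpm'.2.trans (mul_le_mul_of_nonneg_right ?_ hdp)
    have h4 : (1 / 2 : ℝ) ^ m0 * (Real.exp (p - 1) - 1) + p * β ≤ δ / 2 := by
      have h5 : (1 / 2 : ℝ) ^ m0 * (Real.exp (p - 1) - 1) ≤ (1 / 2) ^ m0 * Real.exp p := by
        apply mul_le_mul_of_nonneg_left _ hη0.le
        have : Real.exp (p - 1) ≤ Real.exp p := Real.exp_le_exp.2 (by linarith)
        linarith
      have h6 : β ≤ δ / 4 := by
        rw [hβ]
        apply div_le_div_of_nonneg_left hδ.le (by norm_num) (by linarith)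
      linarith
    have h5 : 0 ≤ (1 / 2 : ℝ) ^ m0 * (Real.exp (p - 1) - 1) + p * β := by
      have h6 := Real.add_one_le_exp (p - 1)
      have h7 : 0 ≤ Real.exp (p - 1) - 1 := by linarith
      positivity
    have h6 := exp_le_one_add_two_mul h5 (by linarith)
    linarith
  · rw [hmom u v (2 * p)]
    have h6 := hE2 hT (H + 2 * T) (mj p m0 (H + 2 * T)) m0 hK (EE p T H x F u v)
      (mul_nonneg (by linarith : 0 ≤ b₂) hd0) (mul_nonneg (by linarith : 0 ≤ b₃) hd0)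
      (h2 u v) (h3 u v)
    have h7 := moment_2p hp hC₂ hT hcard x F m0 u v hb₂ hb₃ h6
    rw [← hA] at h7
    have hJ1 : (1 : ℝ) ≤ ((H + 2 * T : ℕ) : ℝ) := by
      have : 1 ≤ H + 2 * T := by omega
      exact_mod_cast this
    have hJ' : (H : ℝ) + 2 * T = ((H + 2 * T : ℕ) : ℝ) := by push_cast; ring
    rw [hJ']
    have h8 := real_fin (C := 8 * p * C₁ + (A * A2 + c₁ + 2 * p + 1)) hp hA0 hA20 hc10
      (by linarith) hJ1 (M0 := 2 ^ m0) (by positivity) hb₂ hδ hδ1 hm3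
    refine h7.trans ?_
    refine real_split T hp ?_ hb₃ hd0 (by positivity) h8
    positivity

end Vale.Agent.P249.UP
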