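import Vale.Agent.P249.UP.ZBase2

/-!
# P249: the random map for `1 < p < 2`
-/

set_option linter.all false

open scoped BigOperators

namespace Vale.Agent.P249.UP

open Vale.Agent.P249.H75

section
variable {V ι : Type} [Fintype ι] [DecidableEq ι] {p : ℝ} {T H : ℕ} {x : V → ι → ℝ} {u v : V}

/-- error part of the `p`-th moment, `p ≤ 2` -/
theorem MO_le_two (hp : 0 < p) (hp2 : p ≤ 2) (hT : 0 < T) (m0 : ℕ)
    (Y : Fin (H + 2 * T) × ι → ℝ) :
    MO p p T (H + 2 * T) (mj p m0 (H + 2 * T)) m0 Y ≤ (∑ k, |Y k| ^ p) / cT p T := by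
  classical
  rw [MO_self hp hT (by omega)]
  refine div_le_div_of_nonneg_right ?_ (cT_pos hp hT).le
  rw [Fintype.sum_prod_type]
  refine Finset.sum_le_sum fun j _ => ?_
  have h1 := samp_upper_two (B := 2 ^ (mj p m0 (H + 2 * T))) (by positivity)
    (xiF_zero_one (mj p m0 (H + 2 * T)) (mj p m0 j)) hp hp2 (fun i => Y (j, i))
  have h3 := bj_pos p m0 (j : ℕ)
  refine (mul_le_mul_of_nonneg_left h1 h3.le).trans (le_of_eq ?_)
  rw [rate_j hp.le]
  field_simp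

/-- weighted second moment of the bands -/
theorem sum_DD_sq (hp : 1 < p) (hp2 : p < 2) (hT : 0 < T) :
    ∑ k, ((2 : ℝ) ^ (2 - p)) ^ (k.1 : ℕ) * DD p T H x u v k ^ 2 ≤
      2 * T * 4 ^ T * nm p (x u - x v) ^ 2 := by
  have hp0 : 0 < p := by linarith
  set d := nm p (x u - x v) with hd
  have hd0 : 0 ≤ d := nm_nonneg _
  have h1 : ∀ k : Fin (H + 2 * T) × ι, ((2 : ℝ) ^ (2 - p)) ^ (k.1 : ℕ) * DD p T H x u v k ^ 2 ≤
      |DD p T H x u v k| ^ p * (4 ^ T * d) ^ (2 - p) := by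
    intro k
    have h2 := DD_small (x := x) (u := u) (v := v) hp0 hT k
    rw [← hd] at h2
    rcases eq_or_ne (DD p T H x u v k) 0 with h0 | h0
    · rw [h0]
      simp
      positivity
    have h3 : 0 < |DD p T H x u v k| := abs_pos.2 h0
    have h4 : DD p T H x u v k ^ 2 = |DD p T H x u v k| ^ p * |DD p T H x u v k| ^ (2 - p) := by
      rw [← Real.rpow_add h3, ← sq_abs, ← Real.rpow_two]
      congr 1
      ring
    have h5 : ((2 : ℝ) ^ (2 - p)) ^ (k.1 : ℕ) = ((2 : ℝ) ^ (k.1 : ℕ)) ^ (2 - p) := by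
      rw [← Real.rpow_natCast, ← Real.rpow_mul (by norm_num), ← Real.rpow_natCast,
        ← Real.rpow_mul (by norm_num), mul_comm]
    have h6 : ((2 : ℝ) ^ (k.1 : ℕ)) ^ (2 - p) * |DD p T H x u v k| ^ (2 - p) ≤
        (4 ^ T * d) ^ (2 - p) := by
      rw [← Real.mul_rpow (by positivity) h3.le]
      refine Real.rpow_le_rpow (by positivity) ?_ (by linarith)
      calc (2 : ℝ) ^ (k.1 : ℕ) * |DD p T H x u v k|
          ≤ 2 ^ (k.1 : ℕ) * (4 ^ T * (1 / 2) ^ (k.1 : ℕ) * d) :=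
            mul_le_mul_of_nonneg_left h2 (by positivity)
        _ = (2 * (1 / 2)) ^ (k.1 : ℕ) * (4 ^ T * d) := by rw [mul_pow]; ring
        _ = 4 ^ T * d := by norm_num
    rw [h4, h5]
    calc ((2 : ℝ) ^ (k.1 : ℕ)) ^ (2 - p) * (|DD p T H x u v k| ^ p * |DD p T H x u v k| ^ (2 - p))
        = |DD p T H x u v k| ^ p *
          (((2 : ℝ) ^ (k.1 : ℕ)) ^ (2 - p) * |DD p T H x u v k| ^ (2 - p)) := by ring
      _ ≤ _ := mul_le_mul_of_nonneg_left h6 (Real.rpow_nonneg (abs_nonneg _) _)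
  refine (Finset.sum_le_sum fun k _ => h1 k).trans ?_
  rw [← Finset.sum_mul, Fintype.sum_prod_type, sum_DD_rpow hp0 hT, ← hd]
  rcases eq_or_ne d 0 with h0 | h0
  · rw [h0, Real.zero_rpow hp0.ne']
    simp
  have hd1 : 0 < d := lt_of_le_of_ne hd0 (Ne.symm h0)
  rw [Real.mul_rpow (by positivity) hd0]
  have h2 : cT p T ≤ 2 * T := cT_le hp0 T
  have h3 : ((4 : ℝ) ^ T) ^ (2 - p) ≤ 4 ^ T := by
    have h4 : (1 : ℝ) ≤ 4 ^ T := one_le_pow₀ (by norm_num)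
    calc ((4 : ℝ) ^ T) ^ (2 - p) ≤ ((4 : ℝ) ^ T) ^ (1 : ℝ) :=
          Real.rpow_le_rpow_of_exponent_le h4 (by linarith)
      _ = _ := Real.rpow_one _
  have h4 : d ^ p * d ^ (2 - p) = d ^ 2 := by
    rw [← Real.rpow_add hd1, ← Real.rpow_two]
    congr 1
    ring
  have h5 := cT_pos (p := p) hp0 hT
  calc cT p T * d ^ p * (((4 : ℝ) ^ T) ^ (2 - p) * d ^ (2 - p))
      = cT p T * ((4 : ℝ) ^ T) ^ (2 - p) * (d ^ p * d ^ (2 - p)) := by ring
    _ = cT p T * ((4 : ℝ) ^ T) ^ (2 - p) * d ^ 2 := by rw [h4]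
    _ ≤ 2 * T * 4 ^ T * d ^ 2 := by
        refine mul_le_mul_of_nonneg_right ?_ (by positivity)
        exact mul_le_mul h2 h3 (by positivity) (by positivity)

/-- second moment of the random map, `p < 2` -/
theorem MO_two_le (hp : 1 < p) (hp2 : p < 2) (hT : 0 < T) (m0 : ℕ)
    (Y : Fin (H + 2 * T) × ι → ℝ) :
    MO p 2 T (H + 2 * T) (mj p m0 (H + 2 * T)) m0 Y ≤
      32 * ((H : ℝ) + 2 * T) * 2 ^ m0 *
        ∑ k, ((2 : ℝ) ^ (2 - p)) ^ (k.1 : ℕ) * Y k ^ 2 := by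
  classical
  have hp0 : 0 < p := by linarith
  unfold MO
  set J : ℝ := ((H + 2 * T : ℕ) : ℝ) with hJ
  have hT1 : (1 : ℝ) ≤ T := by exact_mod_cast hT
  have hJ1 : 1 ≤ J := by
    rw [hJ]; push_cast
    have : (0 : ℝ) ≤ H := Nat.cast_nonneg _
    linarith
  have hJeq : J = (H : ℝ) + 2 * T := by rw [hJ]; push_cast; ring
  rw [← hJeq]
  have hc := cT_pos (p := p) hp0 hT
  rw [div_le_iff₀ (by linarith), Fintype.sum_prod_type, Finset.mul_sum, Finset.sum_mul]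
  refine Finset.sum_le_sum fun j _ => ?_
  have h1 := samp_upper_two (B := 2 ^ (mj p m0 (H + 2 * T))) (by positivity)
    (xiF_zero_one (mj p m0 (H + 2 * T)) (mj p m0 j)) (p := 2) (by norm_num) le_rfl
    (fun i => Y (j, i))
  rw [rate_j hp0.le] at h1
  have hb := bj_pos p m0 (j : ℕ)
  have hb1 : 0 ≤ J * bj p m0 j / cT p T := by positivity
  refine (mul_le_mul_of_nonneg_left h1 (Real.rpow_nonneg hb1 _)).trans ?_
  -- the factor
  have hcge : 1 / 4 ≤ cT p T := by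
    refine le_trans ?_ (cT_ge hp0 hT)
    have h2 : ((1 : ℝ) / 2) ^ (2 : ℝ) ≤ (1 / 2) ^ p :=
      Real.rpow_le_rpow_of_exponent_ge (by norm_num) (by norm_num) hp2.le
    rw [Real.rpow_two] at h2
    have h3 : (0 : ℝ) ≤ (1 / 2) ^ p := by positivity
    nlinarith
  have hJc : J / cT p T ≤ 4 * J := by
    rw [div_le_iff₀ hc]
    nlinarith
  have h2p : 2 / p ≤ 2 := by
    rw [div_le_iff₀ hp0]; linarith
  have hf1 : (J / cT p T) ^ (2 / p) ≤ (4 * J) ^ 2 := by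
    calc (J / cT p T) ^ (2 / p) ≤ (4 * J) ^ (2 / p) :=
          Real.rpow_le_rpow (by positivity) hJc (by positivity)
      _ ≤ (4 * J) ^ (2 : ℝ) :=
          Real.rpow_le_rpow_of_exponent_le (by linarith) h2p
      _ = _ := Real.rpow_two _
  have he0 : 0 ≤ 2 / p - 1 := by
    rw [sub_nonneg, le_div_iff₀ hp0]; linarith
  have he1 : 2 / p - 1 ≤ 1 := by linarith
  have hf2 : (bj p m0 j) ^ (2 / p) * (1 / bj p m0 j) ≤
      2 * 2 ^ m0 * ((2 : ℝ) ^ (2 - p)) ^ (j : ℕ) := by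
    have h3 : (bj p m0 j) ^ (2 / p) * (1 / bj p m0 j) = (bj p m0 j) ^ (2 / p - 1) := by
      rw [Real.rpow_sub hb, Real.rpow_one]
      ring
    rw [h3]
    have h4 : (1 : ℝ) ≤ 2 * 2 ^ m0 := by
      have : (1 : ℝ) ≤ 2 ^ m0 := one_le_pow₀ (by norm_num)
      linarith
    calc (bj p m0 j) ^ (2 / p - 1)
        ≤ (2 * 2 ^ m0 * (2 : ℝ) ^ ((j : ℝ) * p)) ^ (2 / p - 1) :=
          Real.rpow_le_rpow hb.le (bj_le hp0.le m0 j) he0
      _ = (2 * 2 ^ m0) ^ (2 / p - 1) * ((2 : ℝ) ^ ((j : ℝ) * p)) ^ (2 / p - 1) :=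
          Real.mul_rpow (by positivity) (by positivity)
      _ ≤ (2 * 2 ^ m0) ^ (1 : ℝ) * ((2 : ℝ) ^ ((j : ℝ) * p)) ^ (2 / p - 1) :=
          mul_le_mul_of_nonneg_right (Real.rpow_le_rpow_of_exponent_le h4 he1) (by positivity)
      _ = 2 * 2 ^ m0 * ((2 : ℝ) ^ (2 - p)) ^ (j : ℕ) := by
          have h9 : ((2 : ℝ) ^ ((j : ℝ) * p)) ^ (2 / p - 1) = ((2 : ℝ) ^ (2 - p)) ^ (j : ℕ) := by
            rw [← Real.rpow_mul (by norm_num), ← Real.rpow_natCast ((2 : ℝ) ^ (2 - p)),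
              ← Real.rpow_mul (by norm_num)]
            congr 1
            field_simp
          rw [Real.rpow_one, h9]
  have hf3 : (J * bj p m0 j / cT p T) ^ (2 / p) * (1 / bj p m0 j) ≤
      32 * J * 2 ^ m0 * ((2 : ℝ) ^ (2 - p)) ^ (j : ℕ) * J := by
    have h3 : J * bj p m0 j / cT p T = (J / cT p T) * bj p m0 j := by ring
    rw [h3, Real.mul_rpow (by positivity) hb.le, mul_assoc]
    calc (J / cT p T) ^ (2 / p) * ((bj p m0 j) ^ (2 / p) * (1 / bj p m0 j))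
        ≤ (4 * J) ^ 2 * (2 * 2 ^ m0 * ((2 : ℝ) ^ (2 - p)) ^ (j : ℕ)) :=
          mul_le_mul hf1 hf2 (by positivity) (by positivity)
      _ = _ := by ring
  have hs : ∑ i, |Y (j, i)| ^ (2 : ℝ) = ∑ i, Y (j, i) ^ 2 := by
    refine Finset.sum_congr rfl fun i _ => ?_
    rw [Real.rpow_two, sq_abs]
  have hs0 : 0 ≤ ∑ i, Y (j, i) ^ 2 := Finset.sum_nonneg fun i _ => sq_nonneg _
  have hRR : ∑ y, ((2 : ℝ) ^ (2 - p)) ^ (((j, y) : Fin (H + 2 * T) × ι).1 : ℕ) * Y (j, y) ^ 2 =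
      ((2 : ℝ) ^ (2 - p)) ^ (j : ℕ) * ∑ i, Y (j, i) ^ 2 := by
    rw [Finset.mul_sum]
  rw [hs, hRR]
  calc (J * bj p m0 j / cT p T) ^ (2 / p) * (1 / bj p m0 j * ∑ i, Y (j, i) ^ 2)
      = ((J * bj p m0 j / cT p T) ^ (2 / p) * (1 / bj p m0 j)) * ∑ i, Y (j, i) ^ 2 := by ring
    _ ≤ (32 * J * 2 ^ m0 * ((2 : ℝ) ^ (2 - p)) ^ (j : ℕ) * J) * ∑ i, Y (j, i) ^ 2 :=
        mul_le_mul_of_nonneg_right hf3 hs0
    _ = _ := by ring

end

theorem exp_le_one_add {x δ : ℝ} (hx : 0 ≤ x) (hxδ : x ≤ δ / 2) (hδ : δ ≤ 1) :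
    Real.exp x ≤ 1 + δ := by
  have h1 : |x| ≤ 1 := by rw [abs_of_nonneg hx]; linarith
  have h2 := Real.abs_exp_sub_one_sub_id_le h1
  have h3 := (abs_le.1 h2).2
  nlinarith

/-- **the random map for `1 < p < 2`** -/
theorem specZLt (p : ℝ) (hp : 1 < p) (hp2 : p < 2) : SpecZLt p := by
  classical
  refine ⟨64, by norm_num, ?_⟩
  intro V ι _ _ T H hT hcard x F b₁ b₃ δ hb₁ hb₃ hδ hδ1 hbδ hE1 hE2
  have hp0 : 0 < p := by linarith
  -- choice of `m0`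
  obtain ⟨m, hm1, hm2⟩ := exists_nat_pow_near (x := 8 / δ) (y := 2)
    (by rw [le_div_iff₀ hδ]; linarith) (by norm_num)
  have hη : ((1 : ℝ) / 2) ^ (m + 1) ≤ δ / 8 := by
    rw [div_pow, one_pow, div_le_iff₀ (by positivity)]
    rw [div_lt_iff₀ hδ] at hm2
    nlinarith
  have hη0 : (0 : ℝ) < (1 / 2) ^ (m + 1) := by positivity
  have hm3 : (2 : ℝ) ^ (m + 1) ≤ 16 / δ := by
    rw [pow_succ]
    have : 16 / δ = 8 / δ * 2 := by ring
    rw [this]
    exact mul_le_mul_of_nonneg_right hm1 (by norm_num)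
  have hβ : b₁ ≤ δ / 64 := by linarith
  obtain ⟨M, g, hM, hmom, hmain⟩ := z_main hp hT hcard x F (m + 1)
  refine ⟨M, g, hM, ?_⟩
  intro u v
  set d := nm p (x u - x v) with hd
  have hd0 : 0 ≤ d := nm_nonneg _
  have hdp : 0 ≤ d ^ p := Real.rpow_nonneg hd0 _
  have hEm : MO p p T (H + 2 * T) (mj p (m + 1) (H + 2 * T)) (m + 1) (EE p T H x F u v) ≤
      (b₁ * d) ^ p := by
    refine (MO_le_two hp0 hp2.le hT (m + 1) _).trans ?_
    rw [div_le_iff₀ (cT_pos hp0 hT)]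
    exact (hE1 u v).trans (le_of_eq (mul_comm _ _))
  obtain ⟨h1, h2⟩ := hmain u v b₁ hb₁ (by linarith) hEm
  have hc : Real.exp (p - 1) - 1 ≤ 2 := by
    have h3 : Real.exp (p - 1) ≤ Real.exp 1 := Real.exp_le_exp.2 (by linarith)
    have h4 := Real.exp_one_lt_d9
    linarith
  have hc0 : 0 ≤ Real.exp (p - 1) - 1 := by
    have := Real.add_one_le_exp (p - 1)
    linarith
  refine ⟨?_, ?_, ?_⟩
  · refine le_trans (mul_le_mul_of_nonneg_right ?_ hdp) h1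
    nlinarith
  · refine h2.trans (mul_le_mul_of_nonneg_right ?_ hdp)
    refine exp_le_one_add (by positivity) ?_ hδ1
    nlinarith
  · rw [hmom u v 2, Real.rpow_two]
    refine (MO_two_le hp hp2 hT (m + 1) _).trans ?_
    set J : ℝ := (H : ℝ) + 2 * T with hJ
    have hT1 : (1 : ℝ) ≤ T := by exact_mod_cast hT
    have hH0 : (0 : ℝ) ≤ H := Nat.cast_nonneg _
    have hJ1 : 1 ≤ J := by linarith
    have hTJ : 2 * (T : ℝ) ≤ J := by linarith
    have hD := sum_DD_sq (H := H) (x := x) (u := u) (v := v) hp hp2 hT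
    have hE := hE2 u v
    rw [← hd] at hD hE
    have h3 : ∑ k : Fin (H + 2 * T) × ι, ((2 : ℝ) ^ (2 - p)) ^ (k.1 : ℕ) * (F u k - F v k) ^ 2 ≤
        2 * (2 * T * 4 ^ T * d ^ 2) + 2 * (b₃ * d) ^ 2 := by
      have h4 : ∀ k : Fin (H + 2 * T) × ι,
          ((2 : ℝ) ^ (2 - p)) ^ (k.1 : ℕ) * (F u k - F v k) ^ 2 ≤
          2 * (((2 : ℝ) ^ (2 - p)) ^ (k.1 : ℕ) * DD p T H x u v k ^ 2) +
          2 * (((2 : ℝ) ^ (2 - p)) ^ (k.1 : ℕ) * EE p T H x F u v k ^ 2) := by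
        intro k
        have h5 : F u k - F v k = DD p T H x u v k - EE p T H x F u v k := by
          unfold EE; ring
        rw [h5]
        have h6 : 0 ≤ ((2 : ℝ) ^ (2 - p)) ^ (k.1 : ℕ) := by positivity
        have h7 := mul_nonneg h6 (sq_nonneg (DD p T H x u v k + EE p T H x F u v k))
        nlinarith
      refine (Finset.sum_le_sum fun k _ => h4 k).trans ?_
      rw [Finset.sum_add_distrib, ← Finset.mul_sum, ← Finset.mul_sum]
      linarith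
    have h4 : (1 : ℝ) ≤ 4 ^ T := one_le_pow₀ (by norm_num)
    have hb3 : 1 ≤ b₃ ^ 2 := one_le_pow₀ hb₃
    have h5 : 2 * (2 * T * 4 ^ T * d ^ 2) + 2 * (b₃ * d) ^ 2 ≤ 4 * (J * 4 ^ T * (b₃ ^ 2 * d ^ 2)) := by
      have h6 : 2 * (T : ℝ) * 4 ^ T * d ^ 2 ≤ J * 4 ^ T * (b₃ ^ 2 * d ^ 2) := by
        have h7 : d ^ 2 ≤ b₃ ^ 2 * d ^ 2 := le_mul_of_one_le_left (sq_nonneg _) hb3
        have h8 : 2 * (T : ℝ) * 4 ^ T ≤ J * 4 ^ T := mul_le_mul_of_nonneg_right hTJ (by positivity)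
        exact mul_le_mul h8 h7 (sq_nonneg _) (by positivity)
      have h7 : (b₃ * d) ^ 2 ≤ J * 4 ^ T * (b₃ ^ 2 * d ^ 2) := by
        rw [mul_pow]
        have h8 : 1 ≤ J * 4 ^ T := one_le_mul_of_one_le_of_one_le hJ1 h4
        exact le_mul_of_one_le_left (by positivity) h8
      linarith
    have hJδ : J ≤ J / δ := by
      rw [le_div_iff₀ hδ]; nlinarith
    have hJδ1 : 1 ≤ J / δ := hJ1.trans hJδ
    have h6 : (1 : ℝ) ≤ (J / δ) ^ (64 : ℝ) ∧ J / δ ≤ (J / δ) ^ (64 : ℝ) := by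
      constructor
      · exact Real.one_le_rpow hJδ1 (by norm_num)
      · calc J / δ = (J / δ) ^ (1 : ℝ) := (Real.rpow_one _).symm
          _ ≤ _ := Real.rpow_le_rpow_of_exponent_le hJδ1 (by norm_num)
    set R := (J / δ) ^ (64 : ℝ) with hR
    have hJ0 : 0 < J := by linarith
    have hstep1 : 32 * J * 2 ^ (m + 1) *
        ∑ k : Fin (H + 2 * T) × ι, ((2 : ℝ) ^ (2 - p)) ^ (k.1 : ℕ) * (F u k - F v k) ^ 2 ≤
        32 * J * (16 / δ) * (4 * (J * 4 ^ T * (b₃ ^ 2 * d ^ 2))) := by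
      refine mul_le_mul ?_ (h3.trans h5) ?_ (by positivity)
      · exact mul_le_mul_of_nonneg_left hm3 (by positivity)
      · exact Finset.sum_nonneg fun k _ => by positivity
    refine hstep1.trans ?_
    have hR2 : (J / δ) * J ≤ R * R := by
      exact mul_le_mul h6.2 (hJδ.trans h6.2) hJ0.le (by linarith [h6.1])
    have h44 : (4 : ℝ) ^ T ≤ 4 ^ T * 4 ^ T := le_mul_of_one_le_left (by positivity) h4
    calc 32 * J * (16 / δ) * (4 * (J * 4 ^ T * (b₃ ^ 2 * d ^ 2)))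
        = 2048 * ((J / δ) * J) * (4 ^ T) * (b₃ ^ 2 * d ^ 2) := by ring
      _ ≤ 2048 * (R * R) * (4 ^ T * 4 ^ T) * (b₃ ^ 2 * d ^ 2) := by
          refine mul_le_mul_of_nonneg_right ?_ (by positivity)
          refine mul_le_mul ?_ h44 (by positivity) (by positivity)
          exact mul_le_mul_of_nonneg_left hR2 (by norm_num)
      _ ≤ 4096 * (R * R) * (4 ^ T * 4 ^ T) * (b₃ ^ 2 * d ^ 2) := by
          refine mul_le_mul_of_nonneg_right ?_ (by positivity)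
          refine mul_le_mul_of_nonneg_right ?_ (by positivity)
          exact mul_le_mul_of_nonneg_right (by norm_num) (by positivity)
      _ = (64 * R * 4 ^ T * b₃ * d) ^ 2 := by ring

end Vale.Agent.P249.UP
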