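import Mathlib

/-!
# P249: random signed sampling of coordinates, definitions
-/

set_option linter.all false

open scoped BigOperators

namespace Vale.Agent.P249.UP

/-- sign of a Boolean -/
noncomputable def sg (b : Bool) : ℝ := if b then 1 else -1

/-- average over hash functions `h : ι → Fin B` and signs `e : ι → Bool` -/
noncomputable def avg {ι : Type*} [Fintype ι] [DecidableEq ι] {B : ℕ}
    (f : (ι → Fin B) → (ι → Bool) → ℝ) : ℝ :=
  (∑ h, ∑ e, f h e) / ((B : ℝ) ^ Fintype.card ι * 2 ^ Fintype.card ι)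

/-- sampling rate -/
noncomputable def rate {B : ℕ} (ξ : Fin B → ℝ) : ℝ := (∑ a, ξ a) / B

/-- signed sum of the sampled coordinates -/
noncomputable def Zs {ι : Type*} [Fintype ι] {B : ℕ} (ξ : Fin B → ℝ) (y : ι → ℝ) (h : ι → Fin B)
    (e : ι → Bool) : ℝ := ∑ i, ξ (h i) * sg (e i) * y i

end Vale.Agent.P249.UP
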