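import Vale.Agent.P249.H75.KEst
import Vale.Agent.P249.UP.SampDefs

/-!
# P249: the random map, specification
-/

set_option linter.all false

open scoped BigOperators

namespace Vale.Agent.P249.UP

open Vale.Agent.P249.H75

/-- band `j` of the difference `x u - x v` -/
noncomputable def DD {V ι : Type*} [Fintype ι] (p : ℝ) (T H : ℕ) (x : V → ι → ℝ) (u v : V)
    (k : Fin (H + 2 * T) × ι) : ℝ :=
  (x u k.2 - x v k.2) * psi T k.1 (lev (nm p (x u - x v)) (x u k.2 - x v k.2) H)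

/-- error of the maps `F` -/
noncomputable def EE {V ι : Type*} [Fintype ι] (p : ℝ) (T H : ℕ) (x : V → ι → ℝ)
    (F : V → Fin (H + 2 * T) × ι → ℝ) (u v : V) (k : Fin (H + 2 * T) × ι) : ℝ :=
  DD p T H x u v k - (F u k - F v k)

/-- The random map, `p > 2`, moments of order `2 p`. -/
def SpecZGt (p : ℝ) : Prop :=
  ∃ C : ℝ, 1 ≤ C ∧ ∀ (V ι : Type) [Fintype V] [Fintype ι] (T H : ℕ), 0 < T →
    Fintype.card ι ≤ 2 ^ H → ∀ (x : V → ι → ℝ) (F : V → Fin (H + 2 * T) × ι → ℝ)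
    (b₁ b₂ b₃ δ : ℝ), 0 ≤ b₁ → 1 ≤ b₂ → 1 ≤ b₃ → 0 < δ → δ ≤ 1 → C * b₁ ≤ δ →
    (∀ u v, ∑ k, |EE p T H x F u v k| ^ p ≤ cT p T * (b₁ * nm p (x u - x v)) ^ p) →
    (∀ u v, ∑ k, ((2 : ℝ) ^ (2 - p)) ^ (k.1 : ℕ) * EE p T H x F u v k ^ 2 ≤
      (b₂ * nm p (x u - x v)) ^ 2) →
    (∀ u v, ∑ k, ((2 : ℝ) ^ (2 * p - p)) ^ (k.1 : ℕ) * |EE p T H x F u v k| ^ (2 * p) ≤
      (b₃ * nm p (x u - x v)) ^ (2 * p)) →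
    ∃ (M : ℕ) (g : V → Fin M → ℝ), 0 < M ∧ ∀ u v,
      (1 - δ) * nm p (x u - x v) ^ p ≤ (∑ i, |g u i - g v i| ^ p) / M ∧
      (∑ i, |g u i - g v i| ^ p) / M ≤ (1 + δ) * nm p (x u - x v) ^ p ∧
      (∑ i, |g u i - g v i| ^ (2 * p)) / M ≤
        (C * (((H : ℝ) + 2 * T) * b₂ / δ) ^ C * 4 ^ T * b₃ * nm p (x u - x v)) ^ (2 * p)

/-- The random map, `1 < p < 2`, second moments. -/
def SpecZLt (p : ℝ) : Prop :=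
  ∃ C : ℝ, 1 ≤ C ∧ ∀ (V ι : Type) [Fintype V] [Fintype ι] (T H : ℕ), 0 < T →
    Fintype.card ι ≤ 2 ^ H → ∀ (x : V → ι → ℝ) (F : V → Fin (H + 2 * T) × ι → ℝ)
    (b₁ b₃ δ : ℝ), 0 ≤ b₁ → 1 ≤ b₃ → 0 < δ → δ ≤ 1 → C * b₁ ≤ δ →
    (∀ u v, ∑ k, |EE p T H x F u v k| ^ p ≤ cT p T * (b₁ * nm p (x u - x v)) ^ p) →
    (∀ u v, ∑ k, ((2 : ℝ) ^ (2 - p)) ^ (k.1 : ℕ) * EE p T H x F u v k ^ 2 ≤
      (b₃ * nm p (x u - x v)) ^ 2) →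
    ∃ (M : ℕ) (g : V → Fin M → ℝ), 0 < M ∧ ∀ u v,
      (1 - δ) * nm p (x u - x v) ^ p ≤ (∑ i, |g u i - g v i| ^ p) / M ∧
      (∑ i, |g u i - g v i| ^ p) / M ≤ (1 + δ) * nm p (x u - x v) ^ p ∧
      (∑ i, |g u i - g v i| ^ (2 : ℝ)) / M ≤
        (C * (((H : ℝ) + 2 * T) / δ) ^ C * 4 ^ T * b₃ * nm p (x u - x v)) ^ (2 : ℝ)

end Vale.Agent.P249.UP
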