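import Vale.Agent.P249.UP.SampDefs

/-!
# P249: random signed sampling — (S0) product formula and elementary properties of `avg`
-/

set_option linter.all false

open scoped BigOperators

namespace Vale.Agent.P249.UP

variable {ι : Type*} [Fintype ι] [DecidableEq ι] {B : ℕ}

theorem abs_sg (b : Bool) : |sg b| = 1 := by
  cases b <;> simp [sg]

theorem sg_mul_self (b : Bool) : sg b * sg b = 1 := by
  cases b <;> simp [sg]

/-- the normalising constant is positive -/
theorem norm_pos (hB : 0 < B) : (0:ℝ) < (B : ℝ) ^ Fintype.card ι * 2 ^ Fintype.card ι := by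
  have : (0:ℝ) < B := by exact_mod_cast hB
  positivity

theorem norm_nonneg' : (0:ℝ) ≤ (B : ℝ) ^ Fintype.card ι * 2 ^ Fintype.card ι := by
  positivity

/-- monotonicity of the average -/
theorem avg_mono {f g : (ι → Fin B) → (ι → Bool) → ℝ} (h : ∀ x e, f x e ≤ g x e) :
    avg f ≤ avg g := by
  unfold avg
  apply div_le_div_of_nonneg_right _ norm_nonneg'
  exact Finset.sum_le_sum fun x _ => Finset.sum_le_sum fun e _ => h x e

theorem avg_nonneg {f : (ι → Fin B) → (ι → Bool) → ℝ} (h : ∀ x e, 0 ≤ f x e) :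
    0 ≤ avg f := by
  unfold avg
  apply div_nonneg _ norm_nonneg'
  exact Finset.sum_nonneg fun x _ => Finset.sum_nonneg fun e _ => h x e

theorem avg_add (f g : (ι → Fin B) → (ι → Bool) → ℝ) :
    avg (fun h e => f h e + g h e) = avg f + avg g := by
  unfold avg
  rw [← add_div]
  congr 1
  simp only [Finset.sum_add_distrib]

theorem avg_sub (f g : (ι → Fin B) → (ι → Bool) → ℝ) :
    avg (fun h e => f h e - g h e) = avg f - avg g := by
  unfold avg
  rw [← sub_div]
  congr 1
  simp only [Finset.sum_sub_distrib]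

theorem avg_const_mul (c : ℝ) (f : (ι → Fin B) → (ι → Bool) → ℝ) :
    avg (fun h e => c * f h e) = c * avg f := by
  unfold avg
  rw [← mul_div_assoc]
  congr 1
  simp only [Finset.mul_sum]

theorem avg_mul_const (c : ℝ) (f : (ι → Fin B) → (ι → Bool) → ℝ) :
    avg (fun h e => f h e * c) = avg f * c := by
  rw [mul_comm (avg f) c, ← avg_const_mul]
  congr 1
  funext h e
  ring

theorem avg_sum {κ : Type*} (s : Finset κ) (f : κ → (ι → Fin B) → (ι → Bool) → ℝ) :
    avg (fun h e => ∑ k ∈ s, f k h e) = ∑ k ∈ s, avg (f k) := by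
  unfold avg
  rw [← Finset.sum_div]
  congr 1
  have h1 : ∀ x : ι → Fin B, ∑ e : ι → Bool, ∑ k ∈ s, f k x e = ∑ k ∈ s, ∑ e, f k x e :=
    fun x => Finset.sum_comm
  simp only [h1]
  exact Finset.sum_comm

theorem avg_const (hB : 0 < B) (c : ℝ) :
    avg (ι := ι) (B := B) (fun _ _ => c) = c := by
  unfold avg
  have h := (norm_pos (ι := ι) hB).ne'
  rw [div_eq_iff h]
  simp [Finset.sum_const, Finset.card_univ, Fintype.card_pi]
  ring

/-- **(S0)** product formula for the average -/
theorem avg_prod (g : ι → Fin B → Bool → ℝ) :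
    avg (fun (h : ι → Fin B) (e : ι → Bool) => ∏ i, g i (h i) (e i))
      = ∏ i, ((∑ a, ∑ b, g i a b) / ((B:ℝ) * 2)) := by
  unfold avg
  have h1 : ∀ h : ι → Fin B, ∑ e : ι → Bool, ∏ i, g i (h i) (e i)
      = ∏ i, ∑ b, g i (h i) b := by
    intro h
    rw [Finset.prod_univ_sum]
    rw [Fintype.piFinset_univ]
  have h2 : ∑ h : ι → Fin B, ∏ i, ∑ b, g i (h i) b = ∏ i, ∑ a, ∑ b, g i a b := by
    rw [Finset.prod_univ_sum (fun _ : ι => (Finset.univ : Finset (Fin B)))
      (fun i a => ∑ b, g i a b)]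
    rw [Fintype.piFinset_univ]
  simp only [h1]
  rw [h2, Finset.prod_div_distrib, Finset.prod_const, Finset.card_univ, mul_pow]

/-- **(S0)**, functions of the hash only -/
theorem avg_prod_hash (g : ι → Fin B → ℝ) :
    avg (fun (h : ι → Fin B) (_ : ι → Bool) => ∏ i, g i (h i))
      = ∏ i, ((∑ a, g i a) / (B:ℝ)) := by
  have := avg_prod (ι := ι) (B := B) (fun i a _ => g i a)
  rw [this]
  apply Finset.prod_congr rfl
  intro i _
  simp only [Fintype.sum_bool]
  rw [Finset.sum_add_distrib, ← two_mul, mul_comm (B:ℝ) 2,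
    mul_div_mul_left _ _ (two_ne_zero)]

/-- a single coordinate of the hash -/
theorem avg_single_hash (hB : 0 < B) (i : ι) (g : Fin B → ℝ) :
    avg (fun (h : ι → Fin B) (_ : ι → Bool) => g (h i)) = (∑ a, g a) / (B:ℝ) := by
  have hB' : (B:ℝ) ≠ 0 := by positivity
  have h1 := avg_prod_hash (ι := ι) (B := B) (fun j a => if j = i then g a else 1)
  have h2 : (fun (h : ι → Fin B) (_ : ι → Bool) => ∏ j, (if j = i then g (h j) else 1))
      = (fun (h : ι → Fin B) (_ : ι → Bool) => g (h i)) := by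
    funext h e
    rw [Finset.prod_ite_eq' Finset.univ i (fun j => g (h j))]
    simp
  rw [h2] at h1
  rw [h1, Finset.prod_eq_single i]
  · simp
  · intro j _ hj
    simp [hj, hB']
  · simp

/-- a single coordinate, hash and sign -/
theorem avg_single (hB : 0 < B) (i : ι) (g : Fin B → Bool → ℝ) :
    avg (fun (h : ι → Fin B) (e : ι → Bool) => g (h i) (e i))
      = (∑ a, ∑ b, g a b) / ((B:ℝ) * 2) := by
  have hB' : (B:ℝ) ≠ 0 := by positivity
  have h1 := avg_prod (ι := ι) (B := B) (fun j a b => if j = i then g a b else 1)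
  have h2 : (fun (h : ι → Fin B) (e : ι → Bool) => ∏ j, (if j = i then g (h j) (e j) else 1))
      = (fun (h : ι → Fin B) (e : ι → Bool) => g (h i) (e i)) := by
    funext h e
    rw [Finset.prod_ite_eq' Finset.univ i (fun j => g (h j) (e j))]
    simp
  rw [h2] at h1
  rw [h1, Finset.prod_eq_single i]
  · simp
  · intro j _ hj
    simp only [hj, if_false, Finset.sum_const, Finset.card_univ, Fintype.card_bool, Fintype.card_fin,
      nsmul_eq_mul]
    field_simp
    norm_num
  · simp

theorem rate_nonneg {ξ : Fin B → ℝ} (hξ : ∀ a, ξ a = 0 ∨ ξ a = 1) : 0 ≤ rate ξ := by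
  unfold rate
  apply div_nonneg _ (Nat.cast_nonneg _)
  apply Finset.sum_nonneg
  intro a _
  rcases hξ a with h | h <;> rw [h] <;> norm_num

theorem rate_le_one {ξ : Fin B → ℝ} (hξ : ∀ a, ξ a = 0 ∨ ξ a = 1) : rate ξ ≤ 1 := by
  unfold rate
  apply div_le_one_of_le₀ _ (Nat.cast_nonneg _)
  have : ∑ a : Fin B, ξ a ≤ ∑ a : Fin B, (1:ℝ) := by
    apply Finset.sum_le_sum
    intro a _
    rcases hξ a with h | h <;> rw [h] <;> norm_num
  simpa using this

theorem sum_one_sub_div (hB : 0 < B) (ξ : Fin B → ℝ) :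
    (∑ a, (1 - ξ a)) / (B:ℝ) = 1 - rate ξ := by
  have hB' : (B:ℝ) ≠ 0 := by positivity
  unfold rate
  rw [Finset.sum_sub_distrib, sub_div]
  congr 1
  simp [hB']

end Vale.Agent.P249.UP
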