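import Vale.Agent.P249.UP.S0

/-!
# P249: random signed sampling — (S1) lower bound for the `p`-th moment
-/

set_option linter.all false

open scoped BigOperators

namespace Vale.Agent.P249.UP

variable {ι : Type*} [Fintype ι] [DecidableEq ι] {B : ℕ}

/-- indicator that `i` is the only sampled index of `S` -/
noncomputable def only (ξ : Fin B → ℝ) (S : Finset ι) (i : ι) (h : ι → Fin B) : ℝ :=
  ∏ j, (if j = i then ξ (h j) else if j ∈ S then 1 - ξ (h j) else 1)

theorem only_zero_or_one {ξ : Fin B → ℝ} (hξ : ∀ a, ξ a = 0 ∨ ξ a = 1) (S : Finset ι) (i : ι)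
    (h : ι → Fin B) : only ξ S i h = 0 ∨ only ξ S i h = 1 := by
  classical
  by_cases hz : ∃ j, (if j = i then ξ (h j) else if j ∈ S then 1 - ξ (h j) else (1:ℝ)) = 0
  · left
    obtain ⟨j, hj⟩ := hz
    exact Finset.prod_eq_zero (Finset.mem_univ j) hj
  · right
    push Not at hz
    apply Finset.prod_eq_one
    intro j _
    have h1 := hz j
    by_cases hji : j = i
    · simp only [hji, if_true] at h1 ⊢
      rcases hξ (h i) with h2 | h2
      · exact absurd h2 h1
      · exact h2
    · simp only [hji, if_false] at h1 ⊢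
      by_cases hjS : j ∈ S
      · simp only [hjS, if_true] at h1 ⊢
        rcases hξ (h j) with h2 | h2
        · rw [h2]; norm_num
        · rw [h2] at h1; norm_num at h1
      · simp only [hjS, if_false]

theorem only_eq_one {ξ : Fin B → ℝ} (hξ : ∀ a, ξ a = 0 ∨ ξ a = 1) {S : Finset ι} {i : ι}
    {h : ι → Fin B} (h1 : only ξ S i h ≠ 0) :
    ξ (h i) = 1 ∧ ∀ j ∈ S, j ≠ i → ξ (h j) = 0 := by
  classical
  have hz : ∀ j, (if j = i then ξ (h j) else if j ∈ S then 1 - ξ (h j) else (1:ℝ)) ≠ 0 := by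
    intro j hj
    exact h1 (Finset.prod_eq_zero (Finset.mem_univ j) hj)
  constructor
  · have h2 := hz i
    simp only [if_true] at h2
    rcases hξ (h i) with h3 | h3
    · exact absurd h3 h2
    · exact h3
  · intro j hjS hji
    have h2 := hz j
    simp only [hji, if_false, hjS, if_true] at h2
    rcases hξ (h j) with h3 | h3
    · exact h3
    · rw [h3] at h2; norm_num at h2

/-- average of the indicator -/
theorem avg_only (hB : 0 < B) {ξ : Fin B → ℝ} (S : Finset ι) {i : ι} (hi : i ∈ S) :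
    avg (fun (h : ι → Fin B) (_ : ι → Bool) => only ξ S i h)
      = rate ξ * (1 - rate ξ) ^ (S.card - 1) := by
  classical
  have hB' : (B:ℝ) ≠ 0 := by positivity
  unfold only
  rw [avg_prod_hash (fun j a => if j = i then ξ a else if j ∈ S then 1 - ξ a else 1)]
  rw [← Finset.mul_prod_erase Finset.univ _ (Finset.mem_univ i)]
  simp only [if_true]
  have h0 : (∑ a, ξ a) / (B:ℝ) = rate ξ := rfl
  rw [h0]
  congr 1
  have h1 : ∀ j ∈ Finset.univ.erase i,
      (∑ a, (if j = i then ξ a else if j ∈ S then 1 - ξ a else 1)) / (B:ℝ)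
        = if j ∈ S.erase i then 1 - rate ξ else 1 := by
    intro j hj
    have hji : j ≠ i := Finset.ne_of_mem_erase hj
    by_cases hjS : j ∈ S
    · simp only [hji, if_false, hjS, if_true, Finset.mem_erase, ne_eq, not_false_eq_true, and_self]
      exact sum_one_sub_div hB ξ
    · simp only [hji, if_false, hjS, Finset.mem_erase, and_false]
      simp [hB']
  rw [Finset.prod_congr rfl h1]
  rw [Finset.prod_ite_mem, Finset.prod_const]
  have h2 : (Finset.univ.erase i) ∩ (S.erase i) = S.erase i := by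
    ext j
    simp
  rw [h2, Finset.card_erase_of_mem hi]

/-- pointwise inequality -/
theorem only_sum_le {ξ : Fin B → ℝ} (hξ : ∀ a, ξ a = 0 ∨ ξ a = 1) {p : ℝ} (hp : 0 < p)
    (y : ι → ℝ) (S : Finset ι) (hS : ∀ i, i ∉ S → y i = 0) (h : ι → Fin B) (e : ι → Bool) :
    ∑ i ∈ S, only ξ S i h * |y i| ^ p ≤ |Zs ξ y h e| ^ p := by
  classical
  by_cases hz : ∀ i ∈ S, only ξ S i h = 0
  · have : ∑ i ∈ S, only ξ S i h * |y i| ^ p = 0 := by
      apply Finset.sum_eq_zero
      intro i hi
      rw [hz i hi, zero_mul]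
    rw [this]
    positivity
  · push Not at hz
    obtain ⟨k, hkS, hk⟩ := hz
    obtain ⟨hk1, hk2⟩ := only_eq_one hξ hk
    have hk1' : only ξ S k h = 1 := by
      rcases only_zero_or_one hξ S k h with h3 | h3
      · exact absurd h3 hk
      · exact h3
    have hsum : ∑ i ∈ S, only ξ S i h * |y i| ^ p = |y k| ^ p := by
      rw [Finset.sum_eq_single_of_mem k hkS]
      · rw [hk1', one_mul]
      · intro j hjS hjk
        have h4 : only ξ S j h = 0 := by
          by_contra h5
          have h6 := (only_eq_one hξ h5).1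
          rw [hk2 j hjS hjk] at h6
          norm_num at h6
        rw [h4, zero_mul]
    have hZ : Zs ξ y h e = sg (e k) * y k := by
      unfold Zs
      rw [Finset.sum_eq_single_of_mem k (Finset.mem_univ k)]
      · rw [hk1, one_mul]
      · intro j _ hjk
        by_cases hjS : j ∈ S
        · rw [hk2 j hjS hjk]; ring
        · rw [hS j hjS]; ring
    rw [hsum, hZ, abs_mul, abs_sg, one_mul]

theorem sum_supp {p : ℝ} (hp : 0 < p) (y : ι → ℝ) (S : Finset ι) (hS : ∀ i, i ∉ S → y i = 0) :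
    ∑ i, |y i| ^ p = ∑ i ∈ S, |y i| ^ p := by
  classical
  symm
  apply Finset.sum_subset (Finset.subset_univ S)
  intro i _ hi
  rw [hS i hi, abs_zero, Real.zero_rpow hp.ne']

/-- **(S1)** -/
theorem samp_lower (hB : 0 < B) {ξ : Fin B → ℝ} (hξ : ∀ a, ξ a = 0 ∨ ξ a = 1) {p : ℝ} (hp : 0 < p)
    (y : ι → ℝ) (S : Finset ι) (hS : ∀ i, i ∉ S → y i = 0) :
    rate ξ * (1 - rate ξ * S.card) * ∑ i, |y i| ^ p
      ≤ avg (fun (h : ι → Fin B) (e : ι → Bool) => |Zs ξ y h e| ^ p) := by
  classical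
  have h1 : avg (fun (h : ι → Fin B) (e : ι → Bool) => ∑ i ∈ S, only ξ S i h * |y i| ^ p)
      ≤ avg (fun (h : ι → Fin B) (e : ι → Bool) => |Zs ξ y h e| ^ p) :=
    avg_mono fun h e => only_sum_le hξ hp y S hS h e
  refine le_trans ?_ h1
  rw [avg_sum S (fun i (h : ι → Fin B) (_ : ι → Bool) => only ξ S i h * |y i| ^ p)]
  rw [sum_supp hp y S hS, Finset.mul_sum]
  apply Finset.sum_le_sum
  intro i hi
  rw [avg_mul_const (|y i| ^ p) (fun (h : ι → Fin B) (_ : ι → Bool) => only ξ S i h),
    avg_only hB S hi]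
  apply mul_le_mul_of_nonneg_right _ (by positivity)
  have hr0 := rate_nonneg hξ
  have hr1 := rate_le_one hξ
  apply mul_le_mul_of_nonneg_left _ hr0
  have hb := one_add_mul_le_pow (a := -rate ξ) (by linarith) (S.card - 1)
  have hc : 1 ≤ S.card := Finset.card_pos.mpr ⟨i, hi⟩
  rw [Nat.cast_sub hc, Nat.cast_one] at hb
  have h3 : (1 + -rate ξ) = 1 - rate ξ := by ring
  rw [h3] at hb
  have h4 : 1 - rate ξ * S.card ≤ 1 + ((S.card:ℝ) - 1) * -rate ξ := by
    nlinarith
  exact h4.trans hb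

end Vale.Agent.P249.UP
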