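import Vale.Agent.P249.UP.S1

/-!
# P249: random signed sampling — (S2) upper bound for the `p`-th moment on a finite support
-/

set_option linter.all false

open scoped BigOperators

namespace Vale.Agent.P249.UP

variable {ι : Type*} [Fintype ι] [DecidableEq ι] {B : ℕ}

/-- power mean inequality with 0/1 weights -/
theorem weighted_pow_sum_le {S : Finset ι} {x t : ι → ℝ} {p : ℝ} (hp : 1 ≤ p)
    (hx : ∀ i, x i = 0 ∨ x i = 1) (ht : ∀ i, 0 ≤ t i) :
    (∑ i ∈ S, x i * t i) ^ p ≤ (∑ i ∈ S, x i) ^ (p - 1) * ∑ i ∈ S, x i * t i ^ p := by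
  classical
  have hx0 : ∀ i, 0 ≤ x i := fun i => by rcases hx i with h | h <;> rw [h] <;> norm_num
  set K := ∑ i ∈ S, x i with hK
  have hK0 : 0 ≤ K := Finset.sum_nonneg fun i _ => hx0 i
  rcases hK0.eq_or_lt with hK1 | hK1
  · have hall : ∀ i ∈ S, x i = 0 := by
      intro i hi
      have := (Finset.sum_eq_zero_iff_of_nonneg (fun i _ => hx0 i)).mp (hK.symm.trans hK1.symm)
      exact this i hi
    have h1 : ∑ i ∈ S, x i * t i = 0 := by
      apply Finset.sum_eq_zero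
      intro i hi
      rw [hall i hi, zero_mul]
    have h2 : ∑ i ∈ S, x i * t i ^ p = 0 := by
      apply Finset.sum_eq_zero
      intro i hi
      rw [hall i hi, zero_mul]
    rw [h1, h2, mul_zero, Real.zero_rpow (by linarith)]
  · have hw : ∑ i ∈ S, x i / K = 1 := by
      rw [← Finset.sum_div, ← hK, div_self hK1.ne']
    have h1 := Real.rpow_arith_mean_le_arith_mean_rpow S (fun i => x i / K) t
      (fun i _ => div_nonneg (hx0 i) hK0) hw (fun i _ => ht i) hp
    have h2 : ∑ i ∈ S, x i / K * t i = (∑ i ∈ S, x i * t i) / K := by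
      rw [Finset.sum_div]
      apply Finset.sum_congr rfl
      intro i _
      ring
    have h3 : ∑ i ∈ S, x i / K * t i ^ p = (∑ i ∈ S, x i * t i ^ p) / K := by
      rw [Finset.sum_div]
      apply Finset.sum_congr rfl
      intro i _
      ring
    rw [h2, h3, Real.div_rpow (Finset.sum_nonneg fun i _ => mul_nonneg (hx0 i) (ht i)) hK0,
      div_le_iff₀ (Real.rpow_pos_of_pos hK1 p)] at h1
    calc (∑ i ∈ S, x i * t i) ^ p ≤ (∑ i ∈ S, x i * t i ^ p) / K * K ^ p := h1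
      _ = K ^ (p - 1) * ∑ i ∈ S, x i * t i ^ p := by
          rw [Real.rpow_sub hK1, Real.rpow_one]
          ring

/-- weight attached to the index `i` -/
noncomputable def wgt (ξ : Fin B → ℝ) (S : Finset ι) (q : ℝ) (i : ι) (h : ι → Fin B) : ℝ :=
  ∏ j, (if j = i then ξ (h j) else if j ∈ S then 1 + ξ (h j) * (Real.exp q - 1) else 1)

theorem exp_zero_one {x q : ℝ} (hx : x = 0 ∨ x = 1) :
    Real.exp (q * x) = 1 + x * (Real.exp q - 1) := by
  rcases hx with h | h <;> rw [h] <;> simp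

theorem wgt_eq {ξ : Fin B → ℝ} (hξ : ∀ a, ξ a = 0 ∨ ξ a = 1) (S : Finset ι) (q : ℝ) {i : ι}
    (hi : i ∈ S) (h : ι → Fin B) :
    wgt ξ S q i h = ξ (h i) * Real.exp (q * ∑ j ∈ S.erase i, ξ (h j)) := by
  classical
  unfold wgt
  rw [← Finset.mul_prod_erase Finset.univ _ (Finset.mem_univ i)]
  simp only [if_true]
  congr 1
  rw [Finset.mul_sum, Real.exp_sum]
  have h1 : ∀ j ∈ Finset.univ.erase i,
      (if j = i then ξ (h j) else if j ∈ S then 1 + ξ (h j) * (Real.exp q - 1) else 1)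
        = if j ∈ S.erase i then Real.exp (q * ξ (h j)) else 1 := by
    intro j hj
    have hji : j ≠ i := Finset.ne_of_mem_erase hj
    by_cases hjS : j ∈ S
    · simp only [hji, if_false, hjS, if_true, Finset.mem_erase, ne_eq, not_false_eq_true, and_self]
      exact (exp_zero_one (hξ _)).symm
    · simp only [hji, if_false, hjS, Finset.mem_erase, and_false]
  rw [Finset.prod_congr rfl h1, Finset.prod_ite_mem]
  have h2 : (Finset.univ.erase i) ∩ (S.erase i) = S.erase i := by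
    ext j
    simp
  rw [h2]

theorem avg_wgt (hB : 0 < B) {ξ : Fin B → ℝ} (S : Finset ι) (q : ℝ) {i : ι} (hi : i ∈ S) :
    avg (fun (h : ι → Fin B) (_ : ι → Bool) => wgt ξ S q i h)
      = rate ξ * (1 + rate ξ * (Real.exp q - 1)) ^ (S.card - 1) := by
  classical
  have hB' : (B:ℝ) ≠ 0 := by positivity
  unfold wgt
  rw [avg_prod_hash (fun j a => if j = i then ξ a else if j ∈ S then 1 + ξ a * (Real.exp q - 1) else 1)]
  rw [← Finset.mul_prod_erase Finset.univ _ (Finset.mem_univ i)]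
  simp only [if_true]
  have h0 : (∑ a, ξ a) / (B:ℝ) = rate ξ := rfl
  rw [h0]
  congr 1
  have h1 : ∀ j ∈ Finset.univ.erase i,
      (∑ a, (if j = i then ξ a else if j ∈ S then 1 + ξ a * (Real.exp q - 1) else 1)) / (B:ℝ)
        = if j ∈ S.erase i then 1 + rate ξ * (Real.exp q - 1) else 1 := by
    intro j hj
    have hji : j ≠ i := Finset.ne_of_mem_erase hj
    by_cases hjS : j ∈ S
    · simp only [hji, if_false, hjS, if_true, Finset.mem_erase, ne_eq, not_false_eq_true, and_self]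
      rw [Finset.sum_add_distrib, add_div, ← Finset.sum_mul]
      unfold rate
      simp [hB']
      ring
    · simp only [hji, if_false, hjS, Finset.mem_erase, and_false]
      simp [hB']
  rw [Finset.prod_congr rfl h1]
  rw [Finset.prod_ite_mem, Finset.prod_const]
  have h2 : (Finset.univ.erase i) ∩ (S.erase i) = S.erase i := by
    ext j
    simp
  rw [h2, Finset.card_erase_of_mem hi]

theorem zs_eq_supp (ξ : Fin B → ℝ) (y : ι → ℝ) (S : Finset ι) (hS : ∀ i, i ∉ S → y i = 0)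
    (h : ι → Fin B) (e : ι → Bool) :
    Zs ξ y h e = ∑ i ∈ S, ξ (h i) * sg (e i) * y i := by
  unfold Zs
  symm
  apply Finset.sum_subset (Finset.subset_univ S)
  intro i _ hi
  rw [hS i hi, mul_zero]

/-- pointwise bound -/
theorem zs_pow_le {ξ : Fin B → ℝ} (hξ : ∀ a, ξ a = 0 ∨ ξ a = 1) {p : ℝ} (hp : 1 ≤ p)
    (y : ι → ℝ) (S : Finset ι) (hS : ∀ i, i ∉ S → y i = 0) (h : ι → Fin B) (e : ι → Bool) :
    |Zs ξ y h e| ^ p ≤ ∑ i ∈ S, wgt ξ S (p - 1) i h * |y i| ^ p := by
  classical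
  have hx0 : ∀ i, 0 ≤ ξ (h i) := fun i => by rcases hξ (h i) with h | h <;> rw [h] <;> norm_num
  rw [zs_eq_supp ξ y S hS]
  have h1 : |∑ i ∈ S, ξ (h i) * sg (e i) * y i| ≤ ∑ i ∈ S, ξ (h i) * |y i| := by
    refine (Finset.abs_sum_le_sum_abs _ _).trans (le_of_eq ?_)
    apply Finset.sum_congr rfl
    intro i _
    rw [abs_mul, abs_mul, abs_sg, mul_one, abs_of_nonneg (hx0 i)]
  have h2 : |∑ i ∈ S, ξ (h i) * sg (e i) * y i| ^ p ≤ (∑ i ∈ S, ξ (h i) * |y i|) ^ p :=
    Real.rpow_le_rpow (abs_nonneg _) h1 (by linarith)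
  have h3 := weighted_pow_sum_le (S := S) (x := fun i => ξ (h i)) (t := fun i => |y i|) hp
    (fun i => hξ (h i)) (fun i => abs_nonneg _)
  refine h2.trans (h3.trans ?_)
  rw [Finset.mul_sum]
  apply Finset.sum_le_sum
  intro i hi
  rw [wgt_eq hξ S (p - 1) hi h]
  rcases hξ (h i) with h4 | h4
  · simp only [h4]
    simp
  · simp only [h4, one_mul]
    apply mul_le_mul_of_nonneg_right _ (by positivity)
    have h5 : ∑ j ∈ S, ξ (h j) = 1 + ∑ j ∈ S.erase i, ξ (h j) := by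
      rw [← Finset.add_sum_erase S _ hi, h4]
    rw [h5]
    have h6 : 0 ≤ ∑ j ∈ S.erase i, ξ (h j) := Finset.sum_nonneg fun j _ => hx0 j
    have h7 : 1 + ∑ j ∈ S.erase i, ξ (h j) ≤ Real.exp (∑ j ∈ S.erase i, ξ (h j)) := by
      have := Real.add_one_le_exp (∑ j ∈ S.erase i, ξ (h j))
      linarith
    calc (1 + ∑ j ∈ S.erase i, ξ (h j)) ^ (p - 1)
        ≤ (Real.exp (∑ j ∈ S.erase i, ξ (h j))) ^ (p - 1) :=
          Real.rpow_le_rpow (by linarith) h7 (by linarith)
      _ = Real.exp ((p - 1) * ∑ j ∈ S.erase i, ξ (h j)) := by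
          rw [← Real.exp_mul, mul_comm]

/-- **(S2)** -/
theorem samp_upper (hB : 0 < B) {ξ : Fin B → ℝ} (hξ : ∀ a, ξ a = 0 ∨ ξ a = 1) {p : ℝ} (hp : 1 ≤ p)
    (y : ι → ℝ) (S : Finset ι) (hS : ∀ i, i ∉ S → y i = 0) :
    avg (fun (h : ι → Fin B) (e : ι → Bool) => |Zs ξ y h e| ^ p)
      ≤ Real.exp (rate ξ * S.card * (Real.exp (p - 1) - 1)) * (rate ξ * ∑ i, |y i| ^ p) := by
  classical
  have h1 : avg (fun (h : ι → Fin B) (e : ι → Bool) => |Zs ξ y h e| ^ p)
      ≤ avg (fun (h : ι → Fin B) (_ : ι → Bool) => ∑ i ∈ S, wgt ξ S (p - 1) i h * |y i| ^ p) :=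
    avg_mono fun h e => zs_pow_le hξ hp y S hS h e
  refine h1.trans ?_
  rw [avg_sum S (fun i (h : ι → Fin B) (_ : ι → Bool) => wgt ξ S (p - 1) i h * |y i| ^ p)]
  rw [sum_supp (by linarith) y S hS, Finset.mul_sum, Finset.mul_sum]
  apply Finset.sum_le_sum
  intro i hi
  rw [avg_mul_const (|y i| ^ p) (fun (h : ι → Fin B) (_ : ι → Bool) => wgt ξ S (p - 1) i h),
    avg_wgt hB S (p - 1) hi]
  have hr0 := rate_nonneg hξ
  have he : 0 ≤ Real.exp (p - 1) - 1 := by
    have := Real.add_one_le_exp (p - 1)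
    linarith
  have h2 : (1 + rate ξ * (Real.exp (p - 1) - 1)) ^ (S.card - 1)
      ≤ Real.exp (rate ξ * S.card * (Real.exp (p - 1) - 1)) := by
    have h3 : 1 + rate ξ * (Real.exp (p - 1) - 1) ≤ Real.exp (rate ξ * (Real.exp (p - 1) - 1)) := by
      have := Real.add_one_le_exp (rate ξ * (Real.exp (p - 1) - 1))
      linarith
    have h0 : 0 ≤ rate ξ * (Real.exp (p - 1) - 1) := mul_nonneg hr0 he
    calc (1 + rate ξ * (Real.exp (p - 1) - 1)) ^ (S.card - 1)
        ≤ (1 + rate ξ * (Real.exp (p - 1) - 1)) ^ S.card :=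
          pow_le_pow_right₀ (by linarith) (Nat.sub_le _ _)
      _ ≤ (Real.exp (rate ξ * (Real.exp (p - 1) - 1))) ^ S.card :=
          pow_le_pow_left₀ (by linarith) h3 _
      _ = Real.exp (rate ξ * S.card * (Real.exp (p - 1) - 1)) := by
          rw [← Real.exp_nat_mul]
          congr 1
          ring
  calc rate ξ * (1 + rate ξ * (Real.exp (p - 1) - 1)) ^ (S.card - 1) * |y i| ^ p
      = (1 + rate ξ * (Real.exp (p - 1) - 1)) ^ (S.card - 1) * (rate ξ * |y i| ^ p) := by ring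
    _ ≤ Real.exp (rate ξ * S.card * (Real.exp (p - 1) - 1)) * (rate ξ * |y i| ^ p) :=
        mul_le_mul_of_nonneg_right h2 (mul_nonneg hr0 (by positivity))

end Vale.Agent.P249.UP
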