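import Vale.Agent.P249.UP.SampDefs

/-!
# P249: random signed sampling, (S3): Rosenthal type upper bound

For `1 ≤ p` there is `C` with
`avg |Zs ξ y|^p ≤ C * (rate ξ * ∑ |y i|^p + (rate ξ * ∑ (y i)^2)^(p/2))`
for all `ξ : Fin B → {0,1}` and all `y`.
-/

set_option linter.all false

open scoped BigOperators

namespace Vale.Agent.P249.UP

namespace SThree

variable {ι : Type*} [Fintype ι] [DecidableEq ι] {B : ℕ}

lemma avg_mono {f g : (ι → Fin B) → (ι → Bool) → ℝ} (h : ∀ a e, f a e ≤ g a e) :
    avg f ≤ avg g := by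
  unfold avg
  apply div_le_div_of_nonneg_right _ (by positivity)
  exact Finset.sum_le_sum fun a _ => Finset.sum_le_sum fun e _ => h a e

lemma avg_add (f g : (ι → Fin B) → (ι → Bool) → ℝ) :
    avg (fun h e => f h e + g h e) = avg f + avg g := by
  unfold avg
  rw [← add_div]
  simp only [Finset.sum_add_distrib]

lemma avg_smul (c : ℝ) (f : (ι → Fin B) → (ι → Bool) → ℝ) :
    avg (fun h e => c * f h e) = c * avg f := by
  unfold avg
  rw [← mul_div_assoc]
  simp only [Finset.mul_sum]

lemma avg_sum {κ : Type*} (s : Finset κ) (f : κ → (ι → Fin B) → (ι → Bool) → ℝ) :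
    avg (fun h e => ∑ k ∈ s, f k h e) = ∑ k ∈ s, avg (f k) := by
  unfold avg
  rw [← Finset.sum_div]
  congr 1
  calc ∑ h, ∑ e, ∑ k ∈ s, f k h e = ∑ h, ∑ k ∈ s, ∑ e, f k h e :=
        Finset.sum_congr rfl fun h _ => Finset.sum_comm
    _ = ∑ k ∈ s, ∑ h, ∑ e, f k h e := Finset.sum_comm

/-- product formula -/
lemma avg_prod (g : ι → Fin B → Bool → ℝ) :
    avg (fun (h : ι → Fin B) (e : ι → Bool) => ∏ i, g i (h i) (e i))
      = ∏ i, ((∑ a, ∑ b, g i a b) / ((B : ℝ) * 2)) := by
  unfold avg
  rw [Finset.prod_div_distrib]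
  have h1 : (∏ i : ι, (∑ a, ∑ b, g i a b)) =
      ∑ h : ι → Fin B, ∑ e : ι → Bool, ∏ i, g i (h i) (e i) := by
    have h2 : ∀ i, (∑ a, ∑ b, g i a b) = ∑ x : Fin B × Bool, g i x.1 x.2 := by
      intro i
      rw [Fintype.sum_prod_type]
    simp only [h2]
    rw [Finset.prod_univ_sum, Fintype.piFinset_univ]
    rw [← Equiv.sum_comp (Equiv.arrowProdEquivProdArrow ι (fun _ => Fin B) (fun _ => Bool)).symm
      (fun f : ι → Fin B × Bool => ∏ i, g i (f i).1 (f i).2), Fintype.sum_prod_type]
    rfl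
  rw [h1]
  congr 1
  rw [Finset.prod_const, Finset.card_univ, mul_pow]

lemma rate_nonneg' {ξ : Fin B → ℝ} (hξ : ∀ a, ξ a = 0 ∨ ξ a = 1) : 0 ≤ rate ξ := by
  unfold rate
  apply div_nonneg _ (by positivity)
  exact Finset.sum_nonneg fun a _ => by rcases hξ a with h | h <;> simp [h]

/-- one coordinate average of a function of the sampling variable -/
lemma coord_avg (hB : 0 < B) {ξ : Fin B → ℝ} (hξ : ∀ a, ξ a = 0 ∨ ξ a = 1) (c₀ c₁ : Bool → ℝ)
    (hc : c₀ true + c₀ false = 2) :
    (∑ a, ∑ b, (c₀ b + ξ a * (c₁ b - c₀ b))) / ((B : ℝ) * 2)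
      = 1 + rate ξ * ((c₁ true + c₁ false) / 2 - 1) := by
  have hB' : (B : ℝ) ≠ 0 := by positivity
  have h1 : ∀ a, (∑ b, (c₀ b + ξ a * (c₁ b - c₀ b)))
      = 2 + ξ a * (c₁ true + c₁ false - 2) := by
    intro a
    rw [Fintype.sum_bool]
    linear_combination (1 - ξ a) * hc
  simp only [h1, Finset.sum_add_distrib, Finset.sum_const, Finset.card_univ, Fintype.card_fin,
    nsmul_eq_mul, ← Finset.sum_mul]
  unfold rate
  field_simp

lemma sg_true : sg true = 1 := rfl
lemma sg_false : sg false = -1 := rfl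

/-- exponential moment of the signed sampled sum -/
lemma avg_exp (hB : 0 < B) {ξ : Fin B → ℝ} (hξ : ∀ a, ξ a = 0 ∨ ξ a = 1) (y : ι → ℝ) :
    avg (fun h e => Real.exp (Zs ξ y h e))
      = ∏ i, (1 + rate ξ * (Real.cosh (y i) - 1)) := by
  have h1 : avg (fun (h : ι → Fin B) (e : ι → Bool) => Real.exp (Zs ξ y h e))
      = avg (fun (h : ι → Fin B) (e : ι → Bool) =>
          ∏ i, (1 + ξ (h i) * (Real.exp (sg (e i) * y i) - 1))) := by
    congr 1
    funext h e
    unfold Zs
    rw [Real.exp_sum]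
    apply Finset.prod_congr rfl
    intro i _
    rcases hξ (h i) with h0 | h0 <;> simp [h0]
  rw [h1, avg_prod (fun i a b => 1 + ξ a * (Real.exp (sg b * y i) - 1))]
  apply Finset.prod_congr rfl
  intro i _
  have := coord_avg hB hξ (fun _ => (1 : ℝ)) (fun b => Real.exp (sg b * y i)) (by norm_num)
  rw [this, Real.cosh_eq, sg_true, sg_false, one_mul, neg_one_mul]

lemma cosh_sub_one_le {t : ℝ} (ht : |t| ≤ 1) : Real.cosh t - 1 ≤ t ^ 2 := by
  have h2 := Real.abs_exp_sub_one_sub_id_le ht
  have h3 := Real.abs_exp_sub_one_sub_id_le (x := -t) (by rwa [abs_neg])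
  have h2' := (abs_le.1 h2).2
  have h3' := (abs_le.1 h3).2
  rw [Real.cosh_eq]
  nlinarith

/-- small coordinates -/
lemma avg_exp_le (hB : 0 < B) {ξ : Fin B → ℝ} (hξ : ∀ a, ξ a = 0 ∨ ξ a = 1) (y : ι → ℝ)
    (hy : ∀ i, |y i| ≤ 1) :
    avg (fun h e => Real.exp (Zs ξ y h e)) ≤ Real.exp (rate ξ * ∑ i, (y i) ^ 2) := by
  rw [avg_exp hB hξ, Finset.mul_sum, Real.exp_sum]
  apply Finset.prod_le_prod
  · intro i _
    have := rate_nonneg' hξ
    have h1 := Real.one_le_cosh (y i)
    nlinarith [mul_nonneg this (sub_nonneg.2 h1)]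
  · intro i _
    have h1 : rate ξ * (Real.cosh (y i) - 1) ≤ rate ξ * (y i) ^ 2 :=
      mul_le_mul_of_nonneg_left (cosh_sub_one_le (hy i)) (rate_nonneg' hξ)
    have h2 := Real.add_one_le_exp (rate ξ * (y i) ^ 2)
    linarith

lemma rpow_le_exp {p : ℝ} (hp : 1 ≤ p) (x : ℝ) :
    |x| ^ p ≤ p ^ p * (Real.exp x + Real.exp (-x)) := by
  have hp0 : 0 < p := by linarith
  have h1 : |x| / p ≤ Real.exp (|x| / p) := by
    have := Real.add_one_le_exp (|x| / p); linarith
  have h2 : |x| ≤ p * Real.exp (|x| / p) := by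
    have := mul_le_mul_of_nonneg_left h1 hp0.le
    rwa [mul_div_cancel₀ _ hp0.ne'] at this
  calc |x| ^ p ≤ (p * Real.exp (|x| / p)) ^ p := Real.rpow_le_rpow (abs_nonneg _) h2 hp0.le
    _ = p ^ p * Real.exp (|x|) := by
        rw [Real.mul_rpow hp0.le (Real.exp_pos _).le, ← Real.exp_mul, div_mul_cancel₀ _ hp0.ne']
    _ ≤ p ^ p * (Real.exp x + Real.exp (-x)) := by
        apply mul_le_mul_of_nonneg_left _ (by positivity)
        rcases abs_cases x with ⟨h, _⟩ | ⟨h, _⟩ <;> rw [h]
        · have := Real.exp_pos (-x); linarith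
        · have := Real.exp_pos x; linarith

lemma Zs_smul (c : ℝ) (ξ : Fin B → ℝ) (y : ι → ℝ) (h : ι → Fin B) (e : ι → Bool) :
    Zs ξ (fun i => c * y i) h e = c * Zs ξ y h e := by
  unfold Zs
  rw [Finset.mul_sum]
  exact Finset.sum_congr rfl fun i _ => by ring

/-- small coordinates, `p`-th moment -/
lemma small_part (hB : 0 < B) {ξ : Fin B → ℝ} (hξ : ∀ a, ξ a = 0 ∨ ξ a = 1) {p : ℝ}
    (hp : 1 ≤ p) (y : ι → ℝ) {τ : ℝ} (hτ : 0 < τ) (hy : ∀ i, |y i| ≤ τ)
    (hs : rate ξ * ∑ i, (y i) ^ 2 ≤ τ ^ 2) :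
    avg (fun h e => |Zs ξ y h e| ^ p) ≤ (p ^ p * (2 * Real.exp 1)) * τ ^ p := by
  set z : ι → ℝ := fun i => τ⁻¹ * y i with hz
  have hz1 : ∀ i, |z i| ≤ 1 := by
    intro i
    rw [hz]
    simp only
    rw [abs_mul, abs_of_pos (inv_pos.2 hτ), inv_mul_le_iff₀ hτ, mul_one]
    exact hy i
  have hzs : rate ξ * ∑ i, (z i) ^ 2 ≤ 1 := by
    have : ∑ i, (z i) ^ 2 = (τ ^ 2)⁻¹ * ∑ i, (y i) ^ 2 := by
      rw [Finset.mul_sum]
      apply Finset.sum_congr rfl
      intro i _
      rw [hz]
      simp only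
      rw [mul_pow, inv_pow]
    rw [this, mul_left_comm, inv_mul_le_iff₀ (by positivity), mul_one]
    exact hs
  have e1 : avg (fun (h : ι → Fin B) (e : ι → Bool) => Real.exp (Zs ξ z h e)) ≤ Real.exp 1 :=
    (avg_exp_le hB hξ z hz1).trans (Real.exp_le_exp.2 hzs)
  have e2 : avg (fun (h : ι → Fin B) (e : ι → Bool) => Real.exp (-Zs ξ z h e)) ≤ Real.exp 1 := by
    have h1 : avg (fun (h : ι → Fin B) (e : ι → Bool) => Real.exp (-Zs ξ z h e))
        = avg (fun (h : ι → Fin B) (e : ι → Bool) => Real.exp (Zs ξ (fun i => (-1) * z i) h e)) := by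
      congr 1
      funext h e
      rw [Zs_smul (-1) ξ z, neg_one_mul]
    rw [h1]
    refine (avg_exp_le hB hξ _ ?_).trans (Real.exp_le_exp.2 ?_)
    · intro i
      rw [neg_one_mul, abs_neg]
      exact hz1 i
    · simpa using hzs
  calc avg (fun (h : ι → Fin B) (e : ι → Bool) => |Zs ξ y h e| ^ p)
      ≤ avg (fun (h : ι → Fin B) (e : ι → Bool) =>
          (τ ^ p * p ^ p) * (Real.exp (Zs ξ z h e) + Real.exp (-Zs ξ z h e))) := by
        apply avg_mono
        intro h e
        have h1 : Zs ξ y h e = τ * Zs ξ z h e := by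
          rw [hz, Zs_smul, ← mul_assoc, mul_inv_cancel₀ hτ.ne', one_mul]
        rw [h1, abs_mul, abs_of_pos hτ, Real.mul_rpow hτ.le (abs_nonneg _), mul_assoc]
        exact mul_le_mul_of_nonneg_left (rpow_le_exp hp _) (by positivity)
    _ = (τ ^ p * p ^ p) * (avg (fun (h : ι → Fin B) (e : ι → Bool) => Real.exp (Zs ξ z h e))
          + avg (fun (h : ι → Fin B) (e : ι → Bool) => Real.exp (-Zs ξ z h e))) := by
        rw [avg_smul, avg_add]
    _ ≤ (τ ^ p * p ^ p) * (Real.exp 1 + Real.exp 1) :=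
        mul_le_mul_of_nonneg_left (add_le_add e1 e2) (by positivity)
    _ = _ := by ring

/-- (S2): a sparse sum -/
lemma big_part (hB : 0 < B) {ξ : Fin B → ℝ} (hξ : ∀ a, ξ a = 0 ∨ ξ a = 1) {p : ℝ}
    (hp : 1 ≤ p) (y : ι → ℝ) (S : Finset ι) (hS : ∀ i, i ∉ S → y i = 0) :
    avg (fun h e => |Zs ξ y h e| ^ p)
      ≤ Real.exp (rate ξ * S.card * (Real.exp (p - 1) - 1)) * (rate ξ * ∑ i, |y i| ^ p) := by
  have hp0 : 0 < p := by linarith
  -- weights of the product bound
  set g : ι → ι → Fin B → Bool → ℝ := fun i j a _ =>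
    if j = i then ξ a else if j ∈ S then 1 + ξ a * (Real.exp (p - 1) - 1) else 1 with hg
  have hξ0 : ∀ a, 0 ≤ ξ a := fun a => by rcases hξ a with h | h <;> simp [h]
  have hexp1 : 0 ≤ Real.exp (p - 1) - 1 := by
    have := Real.add_one_le_exp (p - 1); linarith
  have point : ∀ (h : ι → Fin B) (e : ι → Bool),
      |Zs ξ y h e| ^ p ≤ ∑ i ∈ S, |y i| ^ p * ∏ j, g i j (h j) (e j) := by
    intro h e
    set T := S.filter (fun i => ξ (h i) = 1) with hT
    have h1 : |Zs ξ y h e| ≤ ∑ i ∈ T, |y i| := by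
      unfold Zs
      refine (Finset.abs_sum_le_sum_abs _ _).trans ?_
      rw [hT, Finset.sum_filter, ← Finset.sum_subset (Finset.subset_univ S)]
      · apply Finset.sum_le_sum
        intro i _
        rw [abs_mul, abs_mul]
        have hs : |sg (e i)| = 1 := by
          cases e i <;> simp [sg]
        rw [hs, mul_one]
        rcases hξ (h i) with h0 | h0 <;> simp [h0]
      · intro i _ hi
        rw [hS i hi, mul_zero, abs_zero]
    have h2 : (∑ i ∈ T, |y i|) ^ p ≤ (T.card : ℝ) ^ (p - 1) * ∑ i ∈ T, |y i| ^ p :=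
      Real.rpow_sum_le_const_mul_sum_rpow_of_nonneg T hp fun i _ => abs_nonneg _
    have h3 : (T.card : ℝ) ^ (p - 1) * ∑ i ∈ T, |y i| ^ p
        ≤ ∑ i ∈ S, |y i| ^ p * ∏ j, g i j (h j) (e j) := by
      rw [Finset.mul_sum]
      refine le_trans ?_ (Finset.sum_le_sum_of_subset_of_nonneg (s := T) (t := S) (Finset.filter_subset _ S) ?_)
      · apply Finset.sum_le_sum
        intro i hi
        rw [mul_comm]
        apply mul_le_mul_of_nonneg_left _ (by positivity)
        have hiS : i ∈ S := (Finset.mem_filter.1 hi).1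
        have hi1 : ξ (h i) = 1 := (Finset.mem_filter.1 hi).2
        have h4 : ∏ j, g i j (h j) (e j) = Real.exp (p - 1) ^ (T.card - 1) := by
          have h5 : ∏ j, g i j (h j) (e j) = ∏ j ∈ T.erase i, Real.exp (p - 1) := by
            rw [← Finset.prod_subset (Finset.subset_univ (T.erase i))]
            · apply Finset.prod_congr rfl
              intro j hj
              have hji := (Finset.mem_erase.1 hj).1
              have hjT := (Finset.mem_erase.1 hj).2
              have hjS : j ∈ S := (Finset.mem_filter.1 hjT).1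
              have hj1 : ξ (h j) = 1 := (Finset.mem_filter.1 hjT).2
              simp only [hg, hji, if_false, hjS, if_true, hj1]
              ring
            · intro j _ hj
              by_cases hji : j = i
              · subst hji
                simp only [hg, if_true, hi1]
              · simp only [hg, hji, if_false]
                by_cases hjS : j ∈ S
                · have : ξ (h j) ≠ 1 := by
                    intro h6
                    exact hj (Finset.mem_erase.2 ⟨hji, Finset.mem_filter.2 ⟨hjS, h6⟩⟩)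
                  have : ξ (h j) = 0 := (hξ _).resolve_right this
                  simp [hjS, this]
                · simp [hjS]
          rw [h5, Finset.prod_const, Finset.card_erase_of_mem hi]
        rw [h4, ← Real.exp_nat_mul]
        have hc1 : 1 ≤ T.card := Finset.card_pos.2 ⟨i, hi⟩
        rw [Nat.cast_sub hc1, Nat.cast_one]
        have h6 : (T.card : ℝ) ≤ Real.exp ((T.card : ℝ) - 1) := by
          have := Real.add_one_le_exp ((T.card : ℝ) - 1); linarith
        calc (T.card : ℝ) ^ (p - 1) ≤ (Real.exp ((T.card : ℝ) - 1)) ^ (p - 1) :=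
              Real.rpow_le_rpow (by positivity) h6 (by linarith)
          _ = Real.exp (((T.card : ℝ) - 1) * (p - 1)) := by rw [← Real.exp_mul]
      · intro i _ _
        apply mul_nonneg (by positivity)
        apply Finset.prod_nonneg
        intro j _
        simp only [hg]
        split_ifs
        · exact hξ0 _
        · have := mul_nonneg (hξ0 (h j)) hexp1; linarith
        · norm_num
    exact (Real.rpow_le_rpow (abs_nonneg _) h1 hp0.le).trans (h2.trans h3)
  have coordA : ∀ i j, (∑ a, ∑ b, g i j a b) / ((B : ℝ) * 2)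
      = if j = i then rate ξ else if j ∈ S then 1 + rate ξ * (Real.exp (p - 1) - 1) else 1 := by
    intro i j
    have hB' : (B : ℝ) ≠ 0 := by positivity
    by_cases hji : j = i
    · simp only [hg, hji, if_true, Fintype.sum_bool]
      unfold rate
      rw [← Finset.sum_congr rfl (fun a _ => (two_mul (ξ a))), ← Finset.mul_sum]
      field_simp
    · simp only [hg, hji, if_false]
      by_cases hjS : j ∈ S
      · simp only [hjS, if_true]
        have := coord_avg hB hξ (fun _ => (1 : ℝ)) (fun _ => Real.exp (p - 1)) (by norm_num)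
        rw [this]
        ring
      · simp only [hjS, if_false, Fintype.sum_bool, Finset.sum_const, Finset.card_univ,
          Fintype.card_fin, nsmul_eq_mul]
        field_simp
        norm_num
  have prodA : ∀ i, (∏ j, (if j = i then rate ξ else
      if j ∈ S then 1 + rate ξ * (Real.exp (p - 1) - 1) else 1))
      ≤ rate ξ * Real.exp (rate ξ * S.card * (Real.exp (p - 1) - 1)) := by
    intro i
    rw [← Finset.mul_prod_erase Finset.univ _ (Finset.mem_univ i)]
    simp only [if_true]
    apply mul_le_mul_of_nonneg_left _ (rate_nonneg' hξ)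
    have hr := rate_nonneg' hξ
    calc (∏ j ∈ Finset.univ.erase i, (if j = i then rate ξ else
          if j ∈ S then 1 + rate ξ * (Real.exp (p - 1) - 1) else 1))
        ≤ ∏ j ∈ Finset.univ.erase i,
            (if j ∈ S then Real.exp (rate ξ * (Real.exp (p - 1) - 1)) else 1) := by
          apply Finset.prod_le_prod
          · intro j hj
            rw [if_neg (Finset.mem_erase.1 hj).1]
            split_ifs
            · have := mul_nonneg hr hexp1; linarith
            · norm_num
          · intro j hj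
            rw [if_neg (Finset.mem_erase.1 hj).1]
            split_ifs
            · have := Real.add_one_le_exp (rate ξ * (Real.exp (p - 1) - 1)); linarith
            · exact le_rfl
      _ ≤ ∏ j, (if j ∈ S then Real.exp (rate ξ * (Real.exp (p - 1) - 1)) else 1) := by
          have h7 : ∀ j, 1 ≤ (if j ∈ S then Real.exp (rate ξ * (Real.exp (p - 1) - 1)) else 1) := by
            intro j
            split_ifs
            · exact Real.one_le_exp (mul_nonneg hr hexp1)
            · exact le_rfl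
          rw [← Finset.mul_prod_erase Finset.univ _ (Finset.mem_univ i)]
          exact le_mul_of_one_le_left
            (Finset.prod_nonneg fun j _ => zero_le_one.trans (h7 j)) (h7 i)
      _ = Real.exp (rate ξ * S.card * (Real.exp (p - 1) - 1)) := by
          rw [Finset.prod_ite_mem, Finset.univ_inter, Finset.prod_const, ← Real.exp_nat_mul]
          congr 1
          ring
  calc avg (fun (h : ι → Fin B) (e : ι → Bool) => |Zs ξ y h e| ^ p)
      ≤ avg (fun (h : ι → Fin B) (e : ι → Bool) =>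
          ∑ i ∈ S, |y i| ^ p * ∏ j, g i j (h j) (e j)) := avg_mono point
    _ = ∑ i ∈ S, |y i| ^ p * avg (fun (h : ι → Fin B) (e : ι → Bool) =>
          ∏ j, g i j (h j) (e j)) := by
        rw [avg_sum]
        exact Finset.sum_congr rfl fun i _ => avg_smul _ _
    _ ≤ ∑ i ∈ S, |y i| ^ p * (rate ξ * Real.exp (rate ξ * S.card * (Real.exp (p - 1) - 1))) := by
        apply Finset.sum_le_sum
        intro i _
        apply mul_le_mul_of_nonneg_left _ (by positivity)
        rw [avg_prod (g i)]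
        simp only [coordA]
        exact prodA i
    _ ≤ ∑ i, |y i| ^ p * (rate ξ * Real.exp (rate ξ * S.card * (Real.exp (p - 1) - 1))) := by
        apply Finset.sum_le_sum_of_subset_of_nonneg (Finset.subset_univ _)
        intro i _ _
        have := rate_nonneg' hξ
        positivity
    _ = _ := by
        rw [← Finset.sum_mul]
        ring

end SThree

open SThree in
/-- (S3) -/
theorem samp_s3 (p : ℝ) (hp : 1 ≤ p) : ∃ C : ℝ, 1 ≤ C ∧
    ∀ {ι : Type*} [Fintype ι] [DecidableEq ι] {B : ℕ}, 0 < B → ∀ ξ : Fin B → ℝ,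
    (∀ a, ξ a = 0 ∨ ξ a = 1) → ∀ y : ι → ℝ,
    avg (fun (h : ι → Fin B) (e : ι → Bool) => |Zs ξ y h e| ^ p)
      ≤ C * (rate ξ * ∑ i, |y i| ^ p + (rate ξ * ∑ i, (y i) ^ 2) ^ (p / 2)) := by
  have hp0 : 0 < p := by linarith
  set C1 : ℝ := p ^ p * (2 * Real.exp 1) with hC1
  set C2 : ℝ := Real.exp (Real.exp (p - 1) - 1) with hC2
  have hC1' : 0 ≤ C1 := by positivity
  have hexp1 : 0 ≤ Real.exp (p - 1) - 1 := by
    have := Real.add_one_le_exp (p - 1); linarith
  have hC2' : 1 ≤ C2 := Real.one_le_exp hexp1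
  have h2p : (1 : ℝ) ≤ 2 ^ (p - 1) := Real.one_le_rpow (by norm_num) (by linarith)
  refine ⟨2 ^ (p - 1) * (C1 + C2), ?_, ?_⟩
  · nlinarith
  intro ι _ _ B hB ξ hξ y
  have hr := rate_nonneg' hξ
  have hsq : 0 ≤ ∑ i, (y i) ^ 2 := Finset.sum_nonneg fun i _ => sq_nonneg _
  have hpp : 0 ≤ ∑ i, |y i| ^ p := Finset.sum_nonneg fun i _ => by positivity
  rcases (mul_nonneg hr hsq).eq_or_lt with h0 | h0
  · -- degenerate case
    have hz : ∀ (h : ι → Fin B) (e : ι → Bool), Zs ξ y h e = 0 := by
      intro h e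
      rcases mul_eq_zero.1 h0.symm with h1 | h1
      · have h2 : ∑ a, ξ a = 0 := by
          unfold rate at h1
          rcases div_eq_zero_iff.1 h1 with h3 | h3
          · exact h3
          · exact absurd h3 (by positivity)
        have h3 : ∀ a, ξ a = 0 := by
          intro a
          exact (Finset.sum_eq_zero_iff_of_nonneg (fun a _ => by
            rcases hξ a with h | h <;> simp [h])).1 h2 a (Finset.mem_univ a)
        unfold Zs
        simp [h3]
      · have h3 : ∀ i, y i = 0 := by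
          intro i
          have := (Finset.sum_eq_zero_iff_of_nonneg (fun i _ => sq_nonneg (y i))).1 h1 i
            (Finset.mem_univ i)
          exact pow_eq_zero_iff (two_ne_zero) |>.1 this
        unfold Zs
        simp [h3]
    have h4 : avg (fun (h : ι → Fin B) (e : ι → Bool) => |Zs ξ y h e| ^ p) = 0 := by
      unfold avg
      simp [hz, Real.zero_rpow hp0.ne']
    rw [h4]
    positivity
  set A : ℝ := rate ξ * ∑ i, (y i) ^ 2 with hA
  set τ : ℝ := Real.sqrt A with hτdef
  have hτ : 0 < τ := Real.sqrt_pos.2 h0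
  have hτ2 : τ ^ 2 = A := Real.sq_sqrt h0.le
  set y1 : ι → ℝ := fun i => if |y i| ≤ τ then y i else 0 with hy1
  set y2 : ι → ℝ := fun i => if |y i| ≤ τ then 0 else y i with hy2
  set S : Finset ι := Finset.univ.filter (fun i => ¬ |y i| ≤ τ) with hS
  have hsum : ∀ (h : ι → Fin B) (e : ι → Bool), Zs ξ y h e = Zs ξ y1 h e + Zs ξ y2 h e := by
    intro h e
    unfold Zs
    rw [← Finset.sum_add_distrib]
    apply Finset.sum_congr rfl
    intro i _
    simp only [hy1, hy2]
    split_ifs <;> ring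
  have hsm : avg (fun (h : ι → Fin B) (e : ι → Bool) => |Zs ξ y1 h e| ^ p) ≤ C1 * τ ^ p := by
    apply small_part hB hξ hp y1 hτ
    · intro i
      simp only [hy1]
      split_ifs with h
      · exact h
      · simpa using hτ.le
    · rw [hτ2, hA]
      apply mul_le_mul_of_nonneg_left _ hr
      apply Finset.sum_le_sum
      intro i _
      simp only [hy1]
      split_ifs with h
      · exact le_rfl
      · simpa using sq_nonneg (y i)
  have hcard : rate ξ * S.card ≤ 1 := by
    have h1 : (S.card : ℝ) * τ ^ 2 ≤ ∑ i, (y i) ^ 2 := by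
      calc (S.card : ℝ) * τ ^ 2 = ∑ i ∈ S, τ ^ 2 := by rw [Finset.sum_const, nsmul_eq_mul]
        _ ≤ ∑ i ∈ S, (y i) ^ 2 := by
            apply Finset.sum_le_sum
            intro i hi
            have := (Finset.mem_filter.1 hi).2
            rw [← sq_abs (y i)]
            exact pow_le_pow_left₀ hτ.le (not_le.1 this).le 2
        _ ≤ ∑ i, (y i) ^ 2 := Finset.sum_le_sum_of_subset_of_nonneg (Finset.subset_univ _)
            fun i _ _ => sq_nonneg _
    have h2 : rate ξ * S.card * τ ^ 2 ≤ 1 * τ ^ 2 := by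
      rw [mul_assoc, one_mul]
      calc rate ξ * (S.card * τ ^ 2) ≤ rate ξ * ∑ i, (y i) ^ 2 := mul_le_mul_of_nonneg_left h1 hr
        _ = τ ^ 2 := by rw [hτ2]
    exact le_of_mul_le_mul_right h2 (by positivity)
  have hbg : avg (fun (h : ι → Fin B) (e : ι → Bool) => |Zs ξ y2 h e| ^ p)
      ≤ C2 * (rate ξ * ∑ i, |y i| ^ p) := by
    refine (big_part hB hξ hp y2 S ?_).trans ?_
    · intro i hi
      simp only [hy2]
      rw [if_pos]
      by_contra h
      exact hi (Finset.mem_filter.2 ⟨Finset.mem_univ i, h⟩)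
    · apply mul_le_mul
      · rw [hC2]
        apply Real.exp_le_exp.2
        nlinarith
      · apply mul_le_mul_of_nonneg_left _ hr
        apply Finset.sum_le_sum
        intro i _
        simp only [hy2]
        split_ifs
        · rw [abs_zero, Real.zero_rpow hp0.ne']
          positivity
        · exact le_rfl
      · apply mul_nonneg hr
        exact Finset.sum_nonneg fun i _ => by positivity
      · positivity
  have hconv : ∀ a b : ℝ, |a + b| ^ p ≤ 2 ^ (p - 1) * (|a| ^ p + |b| ^ p) := by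
    intro a b
    have h1 := Real.rpow_sum_le_const_mul_sum_rpow_of_nonneg (Finset.univ : Finset (Fin 2))
      (f := ![|a|, |b|]) hp (by intro i _; fin_cases i <;> simp)
    simp only [Fin.sum_univ_two, Matrix.cons_val_zero, Matrix.cons_val_one, Finset.card_univ,
      Fintype.card_fin, Nat.cast_ofNat] at h1
    exact (Real.rpow_le_rpow (abs_nonneg _) (abs_add_le a b) hp0.le).trans h1
  have hτp : τ ^ p = A ^ (p / 2) := by
    rw [hτdef, Real.sqrt_eq_rpow, ← Real.rpow_mul h0.le]
    congr 1
    ring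
  calc avg (fun (h : ι → Fin B) (e : ι → Bool) => |Zs ξ y h e| ^ p)
      ≤ avg (fun (h : ι → Fin B) (e : ι → Bool) =>
          2 ^ (p - 1) * (|Zs ξ y1 h e| ^ p + |Zs ξ y2 h e| ^ p)) := by
        apply avg_mono
        intro h e
        rw [hsum h e]
        exact hconv _ _
    _ = 2 ^ (p - 1) * (avg (fun (h : ι → Fin B) (e : ι → Bool) => |Zs ξ y1 h e| ^ p)
          + avg (fun (h : ι → Fin B) (e : ι → Bool) => |Zs ξ y2 h e| ^ p)) := by
        rw [avg_smul, avg_add]
    _ ≤ 2 ^ (p - 1) * (C1 * A ^ (p / 2) + C2 * (rate ξ * ∑ i, |y i| ^ p)) := by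
        apply mul_le_mul_of_nonneg_left _ (by positivity)
        rw [← hτp]
        exact add_le_add hsm hbg
    _ ≤ 2 ^ (p - 1) * (C1 + C2) * (rate ξ * ∑ i, |y i| ^ p + A ^ (p / 2)) := by
        rw [mul_assoc (2 ^ (p - 1)) (C1 + C2)]
        apply mul_le_mul_of_nonneg_left _ (by positivity)
        have h1 : 0 ≤ A ^ (p / 2) := by positivity
        have h2 : 0 ≤ rate ξ * ∑ i, |y i| ^ p := mul_nonneg hr hpp
        nlinarith [mul_nonneg hC1' h2, mul_nonneg (zero_le_one.trans hC2') h1]

end Vale.Agent.P249.UP
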