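import Vale.Agent.P249.UP.S0

/-!
# P249: random signed sampling — (S4) upper bound for the `p`-th moment, `p ≤ 2`
-/

set_option linter.all false

open scoped BigOperators

namespace Vale.Agent.P249.UP

variable {ι : Type*} [Fintype ι] [DecidableEq ι] {B : ℕ}

/-- average over the signs only -/
noncomputable def savg {ι : Type*} [Fintype ι] [DecidableEq ι] (f : (ι → Bool) → ℝ) : ℝ :=
  (∑ e, f e) / 2 ^ Fintype.card ι

theorem savg_prod (g : ι → Bool → ℝ) :
    savg (fun e : ι → Bool => ∏ i, g i (e i)) = ∏ i, ((∑ b, g i b) / 2) := by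
  unfold savg
  rw [Finset.prod_div_distrib, Finset.prod_const, Finset.card_univ]
  congr 1
  rw [Finset.prod_univ_sum (fun _ : ι => (Finset.univ : Finset Bool)) (fun i b => g i b)]
  rw [Fintype.piFinset_univ]

theorem savg_sum {κ : Type*} (s : Finset κ) (f : κ → (ι → Bool) → ℝ) :
    savg (fun e => ∑ k ∈ s, f k e) = ∑ k ∈ s, savg (f k) := by
  unfold savg
  rw [← Finset.sum_div, Finset.sum_comm]

theorem savg_mul_const (c : ℝ) (f : (ι → Bool) → ℝ) :
    savg (fun e => f e * c) = savg f * c := by
  unfold savg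
  rw [← Finset.sum_mul]
  ring

theorem savg_const (c : ℝ) : savg (fun _ : ι → Bool => c) = c := by
  unfold savg
  rw [Finset.sum_const, Finset.card_univ, Fintype.card_fun, Fintype.card_bool, nsmul_eq_mul]
  push_cast
  field_simp

theorem savg_sg_sg (i j : ι) :
    savg (fun e : ι → Bool => sg (e i) * sg (e j)) = if i = j then 1 else 0 := by
  classical
  by_cases hij : i = j
  · subst hij
    simp only [if_true, sg_mul_self]
    exact savg_const 1
  · simp only [hij, if_false]
    have h1 := savg_prod (ι := ι) (fun k b => if k = i then sg b else if k = j then sg b else 1)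
    have h2 : (fun e : ι → Bool => ∏ k, (if k = i then sg (e k) else if k = j then sg (e k) else 1))
        = (fun e : ι → Bool => sg (e i) * sg (e j)) := by
      funext e
      rw [← Finset.mul_prod_erase Finset.univ _ (Finset.mem_univ i)]
      have hj : j ∈ Finset.univ.erase i := Finset.mem_erase.mpr ⟨fun h => hij h.symm, Finset.mem_univ j⟩
      rw [← Finset.mul_prod_erase (Finset.univ.erase i) _ hj]
      have h3 : ∏ k ∈ (Finset.univ.erase i).erase j,
          (if k = i then sg (e k) else if k = j then sg (e k) else (1:ℝ)) = 1 := by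
        apply Finset.prod_eq_one
        intro k hk
        have hkj : k ≠ j := Finset.ne_of_mem_erase hk
        have hki : k ≠ i := Finset.ne_of_mem_erase (Finset.mem_of_mem_erase hk)
        simp [hkj, hki]
      rw [h3]
      have hji : ¬ j = i := fun h => hij h.symm
      simp [hji]
    rw [h2] at h1
    rw [h1]
    apply Finset.prod_eq_zero (Finset.mem_univ i)
    simp [sg]

/-- second moment of a signed sum -/
theorem savg_sq (a : ι → ℝ) :
    savg (fun e : ι → Bool => (∑ i, sg (e i) * a i) ^ 2) = ∑ i, a i ^ 2 := by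
  classical
  have h1 : (fun e : ι → Bool => (∑ i, sg (e i) * a i) ^ 2)
      = (fun e : ι → Bool => ∑ i, ∑ j, (sg (e i) * sg (e j)) * (a i * a j)) := by
    funext e
    rw [sq, Finset.sum_mul_sum]
    apply Finset.sum_congr rfl
    intro i _
    apply Finset.sum_congr rfl
    intro j _
    ring
  rw [h1, savg_sum Finset.univ (fun i (e : ι → Bool) => ∑ j, (sg (e i) * sg (e j)) * (a i * a j))]
  apply Finset.sum_congr rfl
  intro i _
  rw [savg_sum Finset.univ (fun j (e : ι → Bool) => (sg (e i) * sg (e j)) * (a i * a j))]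
  rw [Finset.sum_eq_single i]
  · rw [savg_mul_const (a i * a i) (fun e : ι → Bool => sg (e i) * sg (e i)), savg_sg_sg]
    simp [sq]
  · intro j _ hj
    rw [savg_mul_const (a i * a j) (fun e : ι → Bool => sg (e i) * sg (e j)), savg_sg_sg]
    simp [hj.symm]
  · simp

/-- Jensen for the sign average -/
theorem savg_rpow_le {p : ℝ} (hp : 0 < p) (hp2 : p ≤ 2) (X : (ι → Bool) → ℝ) :
    savg (fun e => |X e| ^ p) ≤ (savg (fun e => (X e) ^ 2)) ^ (p / 2) := by
  classical
  have hN : (0:ℝ) < 2 ^ Fintype.card ι := by positivity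
  have hw : ∑ e : ι → Bool, (1:ℝ) / 2 ^ Fintype.card ι = 1 := by
    rw [Finset.sum_const, Finset.card_univ, Fintype.card_fun, Fintype.card_bool, nsmul_eq_mul]
    push_cast
    field_simp
  have h1 := Real.rpow_arith_mean_le_arith_mean_rpow (Finset.univ : Finset (ι → Bool))
    (fun _ => 1 / 2 ^ Fintype.card ι) (fun e => |X e| ^ p)
    (fun e _ => by positivity) hw (fun e _ => by positivity) (p := 2 / p)
    (by rw [le_div_iff₀ hp]; linarith)
  have h2 : ∑ e : ι → Bool, 1 / 2 ^ Fintype.card ι * |X e| ^ p = savg (fun e => |X e| ^ p) := by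
    unfold savg
    rw [Finset.sum_div]
    apply Finset.sum_congr rfl
    intro e _
    ring
  have h3 : ∑ e : ι → Bool, 1 / 2 ^ Fintype.card ι * (|X e| ^ p) ^ (2 / p)
      = savg (fun e => (X e) ^ 2) := by
    unfold savg
    rw [Finset.sum_div]
    apply Finset.sum_congr rfl
    intro e _
    rw [← Real.rpow_mul (abs_nonneg _)]
    have : p * (2 / p) = 2 := by field_simp
    rw [this, Real.rpow_two, sq_abs]
    ring
  rw [h2, h3] at h1
  have h0 : 0 ≤ savg (fun e => |X e| ^ p) := by
    unfold savg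
    positivity
  have h4 : savg (fun e => |X e| ^ p) = (savg (fun e => |X e| ^ p) ^ (2 / p)) ^ (p / 2) := by
    rw [← Real.rpow_mul h0]
    have : 2 / p * (p / 2) = 1 := by field_simp
    rw [this, Real.rpow_one]
  rw [h4]
  exact Real.rpow_le_rpow (Real.rpow_nonneg h0 _) h1 (by positivity)

/-- subadditivity of `t ↦ t^q`, `q ≤ 1` -/
theorem rpow_sum_le {κ : Type*} (s : Finset κ) (t : κ → ℝ) (ht : ∀ k, 0 ≤ t k) {q : ℝ}
    (hq : 0 < q) (hq1 : q ≤ 1) : (∑ k ∈ s, t k) ^ q ≤ ∑ k ∈ s, t k ^ q := by
  classical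
  induction s using Finset.induction_on with
  | empty => simp [Real.zero_rpow hq.ne']
  | insert k s hk ih =>
    rw [Finset.sum_insert hk, Finset.sum_insert hk]
    exact (Real.rpow_add_le_add_rpow (ht k) (Finset.sum_nonneg fun k _ => ht k) hq.le hq1).trans
      (add_le_add le_rfl ih)

/-- the double average through the sign average -/
theorem avg_le_of_savg_le {f : (ι → Fin B) → (ι → Bool) → ℝ} {g : (ι → Fin B) → ℝ}
    (h : ∀ x, savg (f x) ≤ g x) : avg f ≤ avg (fun x _ => g x) := by
  unfold avg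
  apply div_le_div_of_nonneg_right _ norm_nonneg'
  apply Finset.sum_le_sum
  intro x _
  have h1 := h x
  unfold savg at h1
  rw [div_le_iff₀ (by positivity)] at h1
  rw [Finset.sum_const, Finset.card_univ, Fintype.card_fun, Fintype.card_bool, nsmul_eq_mul]
  push_cast
  linarith

/-- **(S4)** -/
theorem samp_upper_two (hB : 0 < B) {ξ : Fin B → ℝ} (hξ : ∀ a, ξ a = 0 ∨ ξ a = 1) {p : ℝ}
    (hp : 0 < p) (hp2 : p ≤ 2) (y : ι → ℝ) :
    avg (fun (h : ι → Fin B) (e : ι → Bool) => |Zs ξ y h e| ^ p) ≤ rate ξ * ∑ i, |y i| ^ p := by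
  classical
  have hx0 : ∀ a, 0 ≤ ξ a := fun a => by rcases hξ a with h | h <;> rw [h] <;> norm_num
  have h1 : ∀ h : ι → Fin B, savg (fun e : ι → Bool => |Zs ξ y h e| ^ p)
      ≤ ∑ i, ξ (h i) * |y i| ^ p := by
    intro h
    refine (savg_rpow_le hp hp2 (fun e => Zs ξ y h e)).trans ?_
    have h2 : savg (fun e : ι → Bool => (Zs ξ y h e) ^ 2) = ∑ i, (ξ (h i) * y i) ^ 2 := by
      rw [← savg_sq (fun i => ξ (h i) * y i)]
      congr 1
      funext e
      unfold Zs
      congr 1
      apply Finset.sum_congr rfl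
      intro i _
      ring
    rw [h2]
    refine (rpow_sum_le Finset.univ _ (fun i => sq_nonneg _) (by positivity)
      (by linarith)).trans (le_of_eq ?_)
    apply Finset.sum_congr rfl
    intro i _
    rcases hξ (h i) with h4 | h4
    · rw [h4]
      simp
      rw [Real.zero_rpow (by positivity)]
    · rw [h4, one_mul, one_mul, ← sq_abs, ← Real.rpow_natCast, ← Real.rpow_mul (abs_nonneg _)]
      congr 1
      push_cast
      ring
  refine (avg_le_of_savg_le h1).trans (le_of_eq ?_)
  rw [avg_sum Finset.univ (fun i (h : ι → Fin B) (_ : ι → Bool) => ξ (h i) * |y i| ^ p),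
    Finset.mul_sum]
  apply Finset.sum_congr rfl
  intro i _
  rw [avg_mul_const (|y i| ^ p) (fun (h : ι → Fin B) (_ : ι → Bool) => ξ (h i)),
    avg_single_hash hB i ξ]
  rfl

end Vale.Agent.P249.UP
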