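import Vale.Agent.P249.UP.ZSpec
import Vale.Agent.P249.UP.S2
import Vale.Agent.P249.UP.S4

/-!
# P249: the random map, common part
-/

set_option linter.all false

open scoped BigOperators

namespace Vale.Agent.P249.UP

open Vale.Agent.P249.H75

/-! ### rates -/

/-- exponent of the sampling rate of band `j` -/
noncomputable def mj (p : ℝ) (m0 j : ℕ) : ℕ := ⌈(j : ℝ) * p⌉₊ + m0

/-- inverse sampling rate of band `j` -/
noncomputable def bj (p : ℝ) (m0 j : ℕ) : ℝ := 2 ^ mj p m0 j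

theorem bj_pos (p : ℝ) (m0 j : ℕ) : 0 < bj p m0 j := by unfold bj; positivity

theorem mj_mono {p : ℝ} (hp : 0 ≤ p) {m0 j k : ℕ} (h : j ≤ k) : mj p m0 j ≤ mj p m0 k := by
  unfold mj
  have h1 : (j : ℝ) * p ≤ k * p := mul_le_mul_of_nonneg_right (by exact_mod_cast h) hp
  have := Nat.ceil_mono h1
  omega

theorem bj_ge {p : ℝ} (hp : 0 ≤ p) (m0 j : ℕ) : (2 : ℝ) ^ ((j : ℝ) * p) * 2 ^ m0 ≤ bj p m0 j := by
  unfold bj mj
  rw [pow_add]
  refine mul_le_mul_of_nonneg_right ?_ (by positivity)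
  rw [← Real.rpow_natCast]
  exact Real.rpow_le_rpow_of_exponent_le (by norm_num) (Nat.le_ceil _)

theorem bj_le {p : ℝ} (hp : 0 ≤ p) (m0 j : ℕ) :
    bj p m0 j ≤ 2 * 2 ^ m0 * (2 : ℝ) ^ ((j : ℝ) * p) := by
  unfold bj mj
  rw [pow_add]
  have h1 : (2 : ℝ) ^ ⌈(j : ℝ) * p⌉₊ ≤ 2 * (2 : ℝ) ^ ((j : ℝ) * p) := by
    rw [← Real.rpow_natCast]
    have h2 : ((⌈(j : ℝ) * p⌉₊ : ℕ) : ℝ) ≤ (j : ℝ) * p + 1 :=
      (Nat.ceil_lt_add_one (by positivity)).le
    refine (Real.rpow_le_rpow_of_exponent_le (by norm_num) h2).trans ?_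
    rw [Real.rpow_add (by norm_num), Real.rpow_one, mul_comm]
  have h3 : (0 : ℝ) ≤ 2 ^ m0 := by positivity
  nlinarith

/-- sampling indicator of rate `2^(-m)` -/
noncomputable def xiF (K m : ℕ) (a : Fin (2 ^ K)) : ℝ := if a.val < 2 ^ (K - m) then 1 else 0

theorem xiF_zero_one (K m : ℕ) (a : Fin (2 ^ K)) : xiF K m a = 0 ∨ xiF K m a = 1 := by
  unfold xiF
  split_ifs
  · right; rfl
  · left; rfl

theorem rate_xiF {K m : ℕ} (h : m ≤ K) : rate (xiF K m) = 1 / 2 ^ m := by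
  unfold rate xiF
  rw [Fin.sum_univ_eq_sum_range (fun a => if a < 2 ^ (K - m) then (1 : ℝ) else 0) (2 ^ K)]
  rw [← Finset.sum_filter]
  have h1 : (Finset.range (2 ^ K)).filter (fun a => a < 2 ^ (K - m)) = Finset.range (2 ^ (K - m)) := by
    ext a
    simp only [Finset.mem_filter, Finset.mem_range]
    have : 2 ^ (K - m) ≤ 2 ^ K := Nat.pow_le_pow_right (by norm_num) (Nat.sub_le _ _)
    omega
  rw [h1, Finset.sum_const, Finset.card_range, nsmul_eq_mul, mul_one]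
  have h2 : (2 : ℝ) ^ K = 2 ^ (K - m) * 2 ^ m := by
    rw [← pow_add]; congr 1; omega
  push_cast
  rw [h2]
  have : (2 : ℝ) ^ (K - m) ≠ 0 := by positivity
  field_simp

/-! ### the index set -/

theorem exists_omega {ι : Type} [Fintype ι] [DecidableEq ι] (J B : ℕ) (hJ : 0 < J) (hB : 0 < B) :
    ∃ (M : ℕ) (e : Fin M ≃ Fin J × (ι → Fin B) × (ι → Bool)), 0 < M ∧
      ∀ f : Fin J → (ι → Fin B) → (ι → Bool) → ℝ,
        (∑ i, f (e i).1 (e i).2.1 (e i).2.2) / (M : ℝ) = (∑ j, avg (f j)) / J := by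
  haveI : Nonempty (Fin J) := ⟨⟨0, hJ⟩⟩
  haveI : Nonempty (Fin B) := ⟨⟨0, hB⟩⟩
  refine ⟨Fintype.card (Fin J × (ι → Fin B) × (ι → Bool)), (Fintype.equivFin _).symm,
    Fintype.card_pos, ?_⟩
  intro f
  rw [Equiv.sum_comp (Fintype.equivFin _).symm
    (fun w : Fin J × (ι → Fin B) × (ι → Bool) => f w.1 w.2.1 w.2.2)]
  rw [Fintype.sum_prod_type]
  simp only [Fintype.sum_prod_type, Fintype.card_prod, Fintype.card_fin, Fintype.card_fun,
    Fintype.card_bool]
  unfold avg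
  rw [← Finset.sum_div, div_div]
  congr 1
  push_cast
  ring

/-! ### the map -/

section
variable {ι : Type} [Fintype ι] [DecidableEq ι]

/-- coordinates of the random map -/
noncomputable def GG (p : ℝ) (T J K m0 : ℕ) (Y : Fin J × ι → ℝ) (j : Fin J)
    (h : ι → Fin (2 ^ K)) (e : ι → Bool) : ℝ :=
  ((J : ℝ) * bj p m0 j / cT p T) ^ (1 / p) *
    Zs (xiF K (mj p m0 j)) (fun i => Y (j, i)) h e

theorem Zs_sub {B : ℕ} (ξ : Fin B → ℝ) (y z : ι → ℝ) (h : ι → Fin B) (e : ι → Bool) :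
    Zs ξ (fun i => y i - z i) h e = Zs ξ y h e - Zs ξ z h e := by
  unfold Zs
  rw [← Finset.sum_sub_distrib]
  exact Finset.sum_congr rfl fun i _ => by ring

theorem GG_sub (p : ℝ) (T J K m0 : ℕ) (Y Z : Fin J × ι → ℝ) (j : Fin J)
    (h : ι → Fin (2 ^ K)) (e : ι → Bool) :
    GG p T J K m0 (fun k => Y k - Z k) j h e = GG p T J K m0 Y j h e - GG p T J K m0 Z j h e := by
  unfold GG
  rw [Zs_sub]
  ring

theorem cT_pos {p : ℝ} (hp : 0 < p) {T : ℕ} (hT : 0 < T) : 0 < cT p T := by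
  have h1 := cT_ge hp hT
  have : (0 : ℝ) < (1 / 2) ^ p * T := by
    have : (0 : ℝ) < T := by exact_mod_cast hT
    positivity
  linarith

/-- the moment functional -/
noncomputable def MO (p r : ℝ) (T J K m0 : ℕ) (Y : Fin J × ι → ℝ) : ℝ :=
  (∑ j : Fin J, ((J : ℝ) * bj p m0 j / cT p T) ^ (r / p) *
    avg (fun (h : ι → Fin (2 ^ K)) (e : ι → Bool) =>
      |Zs (xiF K (mj p m0 j)) (fun i => Y (j, i)) h e| ^ r)) / J

theorem avg_GG {p r : ℝ} (hp : 0 < p) {T : ℕ} (hT : 0 < T) (J K m0 : ℕ)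
    (Y : Fin J × ι → ℝ) :
    (∑ j : Fin J, avg (fun (h : ι → Fin (2 ^ K)) (e : ι → Bool) =>
      |GG p T J K m0 Y j h e| ^ r)) / J = MO p r T J K m0 Y := by
  unfold MO
  congr 1
  refine Finset.sum_congr rfl fun j _ => ?_
  rw [← avg_const_mul]
  congr 1
  funext h e
  unfold GG
  have h0 : 0 ≤ (J : ℝ) * bj p m0 j / cT p T :=
    div_nonneg (mul_nonneg (Nat.cast_nonneg _) (bj_pos _ _ _).le) (cT_pos hp hT).le
  rw [abs_mul, abs_of_nonneg (Real.rpow_nonneg h0 _), Real.mul_rpow (Real.rpow_nonneg h0 _)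
    (abs_nonneg _), ← Real.rpow_mul h0]
  congr 2
  ring

/-- the `p`-th moment functional -/
theorem MO_self {p : ℝ} (hp : 0 < p) {T : ℕ} (hT : 0 < T) {J : ℕ} (hJ : 0 < J) (K m0 : ℕ)
    (Y : Fin J × ι → ℝ) :
    MO p p T J K m0 Y = (∑ j : Fin J, bj p m0 j *
    avg (fun (h : ι → Fin (2 ^ K)) (e : ι → Bool) =>
      |Zs (xiF K (mj p m0 j)) (fun i => Y (j, i)) h e| ^ p)) / cT p T := by
  unfold MO
  have hJ' : (J : ℝ) ≠ 0 := by positivity
  have hc := (cT_pos hp hT).ne'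
  rw [Finset.sum_div, Finset.sum_div]
  refine Finset.sum_congr rfl fun j _ => ?_
  rw [div_self hp.ne', Real.rpow_one]
  field_simp

end

/-! ### real lemma -/

theorem tri_real {p M d A AD AE η β c : ℝ} (hp : 1 < p) (hM : 0 < M) (hd : 0 ≤ d) (hA : 0 ≤ A)
    (hAD : 0 ≤ AD) (hAE : 0 ≤ AE) (hη : 0 ≤ η) (hβ : 0 ≤ β) (hηβ : η + β ≤ 1) (hc : 0 ≤ c)
    (h1 : A ≤ AD + AE) (h2 : AD ≤ A + AE) (h3 : AE ^ p / M ≤ (β * d) ^ p)
    (h4 : (1 - η) * d ^ p ≤ AD ^ p / M) (h5 : AD ^ p / M ≤ Real.exp (η * c) * d ^ p) :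
    (1 - p * (η + β)) * d ^ p ≤ A ^ p / M ∧ A ^ p / M ≤ Real.exp (η * c + p * β) * d ^ p := by
  have hp0 : 0 < p := by linarith
  set μ : ℝ := M ^ (1 / p) with hμ
  have hμ0 : 0 < μ := Real.rpow_pos_of_pos hM _
  have hμp : μ ^ p = M := by
    rw [hμ, ← Real.rpow_mul hM.le, one_div_mul_cancel hp0.ne', Real.rpow_one]
  have hAE' : AE ≤ μ * (β * d) := by
    have h6 : AE ^ p ≤ (μ * (β * d)) ^ p := by
      rw [Real.mul_rpow hμ0.le (mul_nonneg hβ hd), hμp]
      rw [div_le_iff₀ hM] at h3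
      linarith
    exact (Real.rpow_le_rpow_iff hAE (by positivity) hp0).1 h6
  have hADu : AD ≤ μ * (Real.exp (η * c / p) * d) := by
    have h6 : AD ^ p ≤ (μ * (Real.exp (η * c / p) * d)) ^ p := by
      rw [Real.mul_rpow hμ0.le (by positivity), hμp, Real.mul_rpow (Real.exp_pos _).le hd,
        ← Real.exp_mul]
      have : η * c / p * p = η * c := by field_simp
      rw [this]
      rw [div_le_iff₀ hM] at h5
      linarith
    exact (Real.rpow_le_rpow_iff hAD (by positivity) hp0).1 h6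
  have hη1 : 0 ≤ 1 - η := by linarith
  have hADl : μ * ((1 - η) * d) ≤ AD := by
    have h6 : (μ * ((1 - η) * d)) ^ p ≤ AD ^ p := by
      rw [Real.mul_rpow hμ0.le (by positivity), hμp, Real.mul_rpow hη1 hd]
      rw [le_div_iff₀ hM] at h4
      have h7 : (1 - η) ^ p ≤ 1 - η := by
        have := Real.rpow_le_rpow_of_exponent_ge' hη1 (by linarith) (by norm_num : (0:ℝ) ≤ 1) hp.le
        rwa [Real.rpow_one] at this
      have h8 : (1 - η) ^ p * d ^ p ≤ (1 - η) * d ^ p :=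
        mul_le_mul_of_nonneg_right h7 (Real.rpow_nonneg hd _)
      nlinarith
    exact (Real.rpow_le_rpow_iff (by positivity) hAD hp0).1 h6
  constructor
  · have h6 : μ * ((1 - η - β) * d) ≤ A := by nlinarith
    have h7 : 0 ≤ 1 - η - β := by linarith
    have h8 := Real.rpow_le_rpow (by positivity) h6 hp0.le
    rw [Real.mul_rpow hμ0.le (by positivity), hμp, Real.mul_rpow h7 hd] at h8
    rw [le_div_iff₀ hM]
    have h9 := one_add_mul_self_le_rpow_one_add (s := -(η + β)) (by linarith) hp.le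
    have h10 : (1 + -(η + β)) = 1 - η - β := by ring
    rw [h10] at h9
    have h11 : (1 - p * (η + β)) * d ^ p ≤ (1 - η - β) ^ p * d ^ p := by
      refine mul_le_mul_of_nonneg_right ?_ (Real.rpow_nonneg hd _)
      linarith
    nlinarith
  · have h6 : A ≤ μ * (Real.exp (η * c / p + β) * d) := by
      have h7 : Real.exp (η * c / p) + β ≤ Real.exp (η * c / p + β) := by
        rw [Real.exp_add]
        have h8 : 1 ≤ Real.exp (η * c / p) := Real.one_le_exp (by positivity)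
        have h9 := Real.add_one_le_exp β
        nlinarith
      have h8 : A ≤ μ * ((Real.exp (η * c / p) + β) * d) := by nlinarith
      refine h8.trans (mul_le_mul_of_nonneg_left (mul_le_mul_of_nonneg_right h7 hd) hμ0.le)
    have h8 := Real.rpow_le_rpow hA h6 hp0.le
    rw [Real.mul_rpow hμ0.le (by positivity), hμp, Real.mul_rpow (Real.exp_pos _).le hd,
      ← Real.exp_mul] at h8
    have : (η * c / p + β) * p = η * c + p * β := by field_simp
    rw [this] at h8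
    rw [div_le_iff₀ hM]
    linarith

end Vale.Agent.P249.UP
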