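import Vale.Agent.P249.UP.ZBase

/-!
# P249: the random map, common part II
-/

set_option linter.all false

open scoped BigOperators

namespace Vale.Agent.P249.UP

open Vale.Agent.P249.H75

theorem abs_le_nm' {ι : Type*} [Fintype ι] {p : ℝ} (hp : 0 < p) (v : ι → ℝ) (i : ι) :
    |v i| ≤ nm p v := by
  have h1 : |v i| ^ p ≤ nm p v ^ p := by
    rw [← nm_pow hp]
    exact Finset.single_le_sum (f := fun i => |v i| ^ p)
      (fun i _ => Real.rpow_nonneg (abs_nonneg _) _) (Finset.mem_univ i)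
  exact (Real.rpow_le_rpow_iff (abs_nonneg _) (nm_nonneg _) hp).1 h1

section
variable {V ι : Type*} [Fintype ι] {p : ℝ} {T H : ℕ} {x : V → ι → ℝ} {u v : V}

/-- size of a non-zero entry of band `j` -/
theorem DD_large (hp : 0 < p) (hT : 0 < T) {j : Fin (H + 2 * T)} (hj : (j : ℕ) ≤ H) {i : ι}
    (h : DD p T H x u v (j, i) ≠ 0) :
    (1 / 2) ^ (j : ℕ) * nm p (x u - x v) < |x u i - x v i| := by
  unfold DD at h
  simp only at h
  have h1 : psi T j (lev (nm p (x u - x v)) (x u i - x v i) H) ≠ 0 := right_ne_zero_of_mul h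
  have h2 := (psi_ne hT h1).1
  by_contra h3
  push Not at h3
  have h4 : |x u i - x v i| ≤ nm p (x u - x v) := abs_le_nm' hp (x u - x v) i
  have h5 := (le_lev_iff h4 hj).2 h3
  omega

theorem DD_abs_le (k : Fin (H + 2 * T) × ι) : |DD p T H x u v k| ≤ |x u k.2 - x v k.2| := by
  unfold DD
  rw [abs_mul, abs_of_nonneg (psi_nonneg _ _ _)]
  exact mul_le_of_le_one_right (abs_nonneg _) (psi_le_one _ _ _)

/-- entries of band `j` are small -/
theorem DD_small (hp : 0 < p) (hT : 0 < T) (k : Fin (H + 2 * T) × ι) :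
    |DD p T H x u v k| ≤ 4 ^ T * (1 / 2) ^ (k.1 : ℕ) * nm p (x u - x v) := by
  by_cases h : DD p T H x u v k = 0
  · rw [h, abs_zero]
    have := nm_nonneg (p := p) (x u - x v)
    positivity
  refine (DD_abs_le k).trans ?_
  have h' := h
  unfold DD at h'
  have h1 : psi T k.1 (lev (nm p (x u - x v)) (x u k.2 - x v k.2) H) ≠ 0 := right_ne_zero_of_mul h'
  have h2 := (psi_ne hT h1).2
  set l := lev (nm p (x u - x v)) (x u k.2 - x v k.2) H with hl
  have h4 : |x u k.2 - x v k.2| ≤ nm p (x u - x v) := abs_le_nm' hp (x u - x v) k.2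
  have h5 : |x u k.2 - x v k.2| ≤ (1 / 2) ^ l * nm p (x u - x v) :=
    (le_lev_iff h4 (lev_le _ _ _)).1 le_rfl
  refine h5.trans (mul_le_mul_of_nonneg_right ?_ (nm_nonneg _))
  have h6 : (k.1 : ℕ) ≤ l + 2 * T := h2.le
  have h7 : ((1 : ℝ) / 2) ^ (l + 2 * T) ≤ (1 / 2) ^ (k.1 : ℕ) :=
    pow_le_pow_of_le_one (by norm_num) (by norm_num) h6
  calc ((1 : ℝ) / 2) ^ l = 4 ^ T * (1 / 2) ^ (l + 2 * T) := by
        rw [pow_add, pow_mul, mul_comm ((1 / 2 : ℝ) ^ l), ← mul_assoc, ← mul_pow]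
        norm_num
    _ ≤ 4 ^ T * (1 / 2) ^ (k.1 : ℕ) := mul_le_mul_of_nonneg_left h7 (by positivity)

open Classical in
/-- number of non-zero entries of band `j` -/
theorem supp_card (hp : 1 ≤ p) (hT : 0 < T) (hcard : Fintype.card ι ≤ 2 ^ H)
    (j : Fin (H + 2 * T)) :
    ((Finset.univ.filter (fun i => DD p T H x u v (j, i) ≠ 0)).card : ℝ) ≤
      (2 : ℝ) ^ (((j : ℕ) : ℝ) * p) := by
  have hp0 : 0 < p := by linarith
  rcases le_or_gt (j : ℕ) H with hj | hj
  · rcases eq_or_ne (nm p (x u - x v)) 0 with hd | hd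
    · have h0 := nm_eq_zero hp0 hd
      have h1 : Finset.univ.filter (fun i => DD p T H x u v (j, i) ≠ 0) = ∅ := by
        rw [Finset.filter_eq_empty_iff]
        intro i _
        rw [not_not]
        unfold DD
        have : x u i - x v i = 0 := congrFun h0 i
        simp [this]
      rw [h1, Finset.card_empty, Nat.cast_zero]
      positivity
    · have hd0 : 0 < nm p (x u - x v) := lt_of_le_of_ne (nm_nonneg _) (Ne.symm hd)
      set S := Finset.univ.filter (fun i => DD p T H x u v (j, i) ≠ 0) with hS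
      set d := nm p (x u - x v) with hdd
      have h1 : ∀ i ∈ S, (((1 : ℝ) / 2) ^ (j : ℕ) * d) ^ p ≤ |x u i - x v i| ^ p := by
        intro i hi
        rw [hS, Finset.mem_filter] at hi
        exact Real.rpow_le_rpow (by positivity) (DD_large hp0 hT hj hi.2).le hp0.le
      have h2 : (S.card : ℝ) * (((1 : ℝ) / 2) ^ (j : ℕ) * d) ^ p ≤ d ^ p := by
        calc (S.card : ℝ) * (((1 : ℝ) / 2) ^ (j : ℕ) * d) ^ p
            = ∑ i ∈ S, (((1 : ℝ) / 2) ^ (j : ℕ) * d) ^ p := by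
              rw [Finset.sum_const, nsmul_eq_mul]
          _ ≤ ∑ i ∈ S, |x u i - x v i| ^ p := Finset.sum_le_sum h1
          _ ≤ ∑ i, |x u i - x v i| ^ p :=
              Finset.sum_le_sum_of_subset_of_nonneg (Finset.subset_univ _)
                fun i _ _ => Real.rpow_nonneg (abs_nonneg _) _
          _ = d ^ p := nm_pow hp0 (x u - x v)
      rw [Real.mul_rpow (by positivity) hd0.le] at h2
      have h3 : 0 < d ^ p := Real.rpow_pos_of_pos hd0 _
      have h4 : (S.card : ℝ) * (((1 : ℝ) / 2) ^ (j : ℕ)) ^ p ≤ 1 := by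
        by_contra h5
        push Not at h5
        nlinarith
      have h5 : (((1 : ℝ) / 2) ^ (j : ℕ)) ^ p * (2 : ℝ) ^ (((j : ℕ) : ℝ) * p) = 1 := by
        rw [Real.rpow_mul (by norm_num : (0:ℝ) ≤ 2), Real.rpow_natCast,
          ← Real.mul_rpow (by positivity) (by positivity), ← mul_pow]
        norm_num
      have h6 : 0 < (2 : ℝ) ^ (((j : ℕ) : ℝ) * p) := by positivity
      calc (S.card : ℝ) = (S.card : ℝ) * (((1 : ℝ) / 2) ^ (j : ℕ)) ^ p *
            (2 : ℝ) ^ (((j : ℕ) : ℝ) * p) := by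
              rw [mul_assoc, h5, mul_one]
        _ ≤ 1 * (2 : ℝ) ^ (((j : ℕ) : ℝ) * p) := mul_le_mul_of_nonneg_right h4 h6.le
        _ = _ := one_mul _
  · have h1 : (Finset.univ.filter (fun i => DD p T H x u v (j, i) ≠ 0)).card ≤ 2 ^ H :=
      (Finset.card_le_univ _).trans hcard
    calc ((Finset.univ.filter (fun i => DD p T H x u v (j, i) ≠ 0)).card : ℝ)
        ≤ (2 : ℝ) ^ H := by exact_mod_cast h1
      _ = (2 : ℝ) ^ (H : ℝ) := (Real.rpow_natCast _ _).symm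
      _ ≤ (2 : ℝ) ^ (((j : ℕ) : ℝ) * p) := by
          refine Real.rpow_le_rpow_of_exponent_le (by norm_num) ?_
          have h2 : (H : ℝ) ≤ ((j : ℕ) : ℝ) := by exact_mod_cast hj.le
          have h3 : (0 : ℝ) ≤ ((j : ℕ) : ℝ) := Nat.cast_nonneg _
          nlinarith

/-- total `p`-mass of the bands -/
theorem sum_DD_rpow (hp : 0 < p) (hT : 0 < T) :
    ∑ j : Fin (H + 2 * T), ∑ i, |DD p T H x u v (j, i)| ^ p = cT p T * nm p (x u - x v) ^ p := by
  rw [Finset.sum_comm, ← nm_pow hp, Finset.mul_sum]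
  refine Finset.sum_congr rfl fun i _ => ?_
  have h1 : ∀ j : Fin (H + 2 * T), |DD p T H x u v (j, i)| ^ p =
      |x u i - x v i| ^ p *
        (fun j : ℕ => psi T j (lev (nm p (x u - x v)) (x u i - x v i) H) ^ p) j := by
    intro j
    unfold DD
    rw [abs_mul, abs_of_nonneg (psi_nonneg _ _ _), Real.mul_rpow (abs_nonneg _) (psi_nonneg _ _ _)]
  rw [Finset.sum_congr rfl fun j _ => h1 j, ← Finset.mul_sum,
    Fin.sum_univ_eq_sum_range (fun j : ℕ => psi T j (lev (nm p (x u - x v)) (x u i - x v i) H) ^ p)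
      (H + 2 * T), sum_psi hp hT (lev_le _ _ _), mul_comm]
  rfl

end

section
variable {V ι : Type} [Fintype ι] [DecidableEq ι] {p : ℝ} {T H : ℕ} {x : V → ι → ℝ} {u v : V}

theorem rate_j (hp : 0 ≤ p) (m0 : ℕ) (j : Fin (H + 2 * T)) :
    rate (xiF (mj p m0 (H + 2 * T)) (mj p m0 j)) = 1 / bj p m0 j :=
  rate_xiF (mj_mono hp j.2.le)

theorem rate_supp (hp : 1 ≤ p) (hT : 0 < T) (hcard : Fintype.card ι ≤ 2 ^ H) (m0 : ℕ)
    (j : Fin (H + 2 * T)) {S : Finset ι}
    (hS : S = Finset.univ.filter (fun i => DD p T H x u v (j, i) ≠ 0)) :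
    rate (xiF (mj p m0 (H + 2 * T)) (mj p m0 j)) * S.card ≤ (1 / 2) ^ m0 := by
  classical
  have hp0 : 0 < p := by linarith
  rw [rate_j hp0.le]
  have h1 : (S.card : ℝ) ≤ (2 : ℝ) ^ (((j : ℕ) : ℝ) * p) := by
    have := supp_card (x := x) (u := u) (v := v) hp hT hcard j
    rw [hS]
    convert this
  have h2 := bj_ge hp0.le m0 (j : ℕ)
  have h3 := bj_pos p m0 (j : ℕ)
  rw [one_div, inv_mul_eq_div, div_le_iff₀ h3]
  refine h1.trans ?_
  have h4 : (2 : ℝ) ^ (((j : ℕ) : ℝ) * p) =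
      (1 / 2) ^ m0 * ((2 : ℝ) ^ (((j : ℕ) : ℝ) * p) * 2 ^ m0) := by
    rw [mul_comm ((2 : ℝ) ^ (((j : ℕ) : ℝ) * p)), ← mul_assoc, ← mul_pow]
    norm_num
  calc (2 : ℝ) ^ (((j : ℕ) : ℝ) * p) =
      (1 / 2) ^ m0 * ((2 : ℝ) ^ (((j : ℕ) : ℝ) * p) * 2 ^ m0) := h4
    _ ≤ (1 / 2) ^ m0 * bj p m0 j := mul_le_mul_of_nonneg_left h2 (by positivity)

/-- lower bound for the D-part -/
theorem MO_DD_ge (hp : 1 ≤ p) (hT : 0 < T) (hcard : Fintype.card ι ≤ 2 ^ H) (m0 : ℕ) :
    (1 - (1 / 2) ^ m0) * nm p (x u - x v) ^ p ≤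
      MO p p T (H + 2 * T) (mj p m0 (H + 2 * T)) m0 (DD p T H x u v) := by
  classical
  have hp0 : 0 < p := by linarith
  rw [MO_self hp0 hT (by omega)]
  rw [le_div_iff₀ (cT_pos hp0 hT), mul_assoc, mul_comm (nm p (x u - x v) ^ p), ← sum_DD_rpow hp0 hT,
    Finset.mul_sum]
  refine Finset.sum_le_sum fun j _ => ?_
  set S := Finset.univ.filter (fun i => DD p T H x u v (j, i) ≠ 0) with hS
  have h1 := samp_lower (B := 2 ^ (mj p m0 (H + 2 * T))) (by positivity)
    (xiF_zero_one (mj p m0 (H + 2 * T)) (mj p m0 j)) hp0 (fun i => DD p T H x u v (j, i)) S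
    (fun i hi => by
      rw [hS, Finset.mem_filter] at hi
      by_contra h
      exact hi ⟨Finset.mem_univ _, h⟩)
  have h2 := rate_supp (x := x) (u := u) (v := v) hp hT hcard m0 j hS
  have h3 := bj_pos p m0 (j : ℕ)
  have h4 : 0 ≤ ∑ i, |DD p T H x u v (j, i)| ^ p :=
    Finset.sum_nonneg fun i _ => Real.rpow_nonneg (abs_nonneg _) _
  refine le_trans ?_ (mul_le_mul_of_nonneg_left h1 h3.le)
  have h5 : bj p m0 j * rate (xiF (mj p m0 (H + 2 * T)) (mj p m0 j)) = 1 := by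
    rw [rate_j hp0.le]
    field_simp
  have h6 : bj p m0 j * (rate (xiF (mj p m0 (H + 2 * T)) (mj p m0 j)) *
      (1 - rate (xiF (mj p m0 (H + 2 * T)) (mj p m0 j)) * S.card) *
        ∑ i, |DD p T H x u v (j, i)| ^ p) =
      (1 - rate (xiF (mj p m0 (H + 2 * T)) (mj p m0 j)) * S.card) *
        ∑ i, |DD p T H x u v (j, i)| ^ p := by
    calc _ = (bj p m0 j * rate (xiF (mj p m0 (H + 2 * T)) (mj p m0 j))) *
        ((1 - rate (xiF (mj p m0 (H + 2 * T)) (mj p m0 j)) * S.card) *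
        ∑ i, |DD p T H x u v (j, i)| ^ p) := by ring
      _ = _ := by rw [h5, one_mul]
  rw [h6]
  exact mul_le_mul_of_nonneg_right (by linarith) h4

/-- upper bound for the D-part, general moment -/
theorem avg_DD_le {r : ℝ} (hr : 1 ≤ r) (hp : 1 ≤ p) (hT : 0 < T)
    (hcard : Fintype.card ι ≤ 2 ^ H) (m0 : ℕ) (j : Fin (H + 2 * T)) :
    bj p m0 j * avg (fun (h : ι → Fin (2 ^ (mj p m0 (H + 2 * T)))) (e : ι → Bool) =>
      |Zs (xiF (mj p m0 (H + 2 * T)) (mj p m0 j)) (fun i => DD p T H x u v (j, i)) h e| ^ r) ≤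
      Real.exp ((1 / 2) ^ m0 * (Real.exp (r - 1) - 1)) * ∑ i, |DD p T H x u v (j, i)| ^ r := by
  classical
  have hp0 : 0 < p := by linarith
  set S := Finset.univ.filter (fun i => DD p T H x u v (j, i) ≠ 0) with hS
  have h1 := samp_upper (B := 2 ^ (mj p m0 (H + 2 * T))) (by positivity)
    (xiF_zero_one (mj p m0 (H + 2 * T)) (mj p m0 j)) hr (fun i => DD p T H x u v (j, i)) S
    (fun i hi => by
      rw [hS, Finset.mem_filter] at hi
      by_contra h
      exact hi ⟨Finset.mem_univ _, h⟩)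
  have h2 := rate_supp (x := x) (u := u) (v := v) hp hT hcard m0 j hS
  have h3 := bj_pos p m0 (j : ℕ)
  have h4 : 0 ≤ ∑ i, |DD p T H x u v (j, i)| ^ r :=
    Finset.sum_nonneg fun i _ => Real.rpow_nonneg (abs_nonneg _) _
  refine (mul_le_mul_of_nonneg_left h1 h3.le).trans ?_
  have h5 : bj p m0 j * rate (xiF (mj p m0 (H + 2 * T)) (mj p m0 j)) = 1 := by
    rw [rate_j hp0.le]
    field_simp
  have h0 : 0 ≤ Real.exp (r - 1) - 1 := by
    have := Real.add_one_le_exp (r - 1)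
    linarith
  calc bj p m0 j * (Real.exp (rate (xiF (mj p m0 (H + 2 * T)) (mj p m0 j)) * S.card *
        (Real.exp (r - 1) - 1)) * (rate (xiF (mj p m0 (H + 2 * T)) (mj p m0 j)) *
        ∑ i, |DD p T H x u v (j, i)| ^ r))
      = (bj p m0 j * rate (xiF (mj p m0 (H + 2 * T)) (mj p m0 j))) *
        (Real.exp (rate (xiF (mj p m0 (H + 2 * T)) (mj p m0 j)) * S.card *
        (Real.exp (r - 1) - 1)) * ∑ i, |DD p T H x u v (j, i)| ^ r) := by ring
    _ = Real.exp (rate (xiF (mj p m0 (H + 2 * T)) (mj p m0 j)) * S.card *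
        (Real.exp (r - 1) - 1)) * ∑ i, |DD p T H x u v (j, i)| ^ r := by rw [h5, one_mul]
    _ ≤ _ := by
        refine mul_le_mul_of_nonneg_right ?_ h4
        exact Real.exp_le_exp.2 (mul_le_mul_of_nonneg_right h2 h0)

/-- upper bound for the D-part, `p`-th moment -/
theorem MO_DD_le (hp : 1 ≤ p) (hT : 0 < T) (hcard : Fintype.card ι ≤ 2 ^ H) (m0 : ℕ) :
    MO p p T (H + 2 * T) (mj p m0 (H + 2 * T)) m0 (DD p T H x u v) ≤
      Real.exp ((1 / 2) ^ m0 * (Real.exp (p - 1) - 1)) * nm p (x u - x v) ^ p := by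
  classical
  have hp0 : 0 < p := by linarith
  rw [MO_self hp0 hT (by omega)]
  rw [div_le_iff₀ (cT_pos hp0 hT), mul_assoc, mul_comm (nm p (x u - x v) ^ p), ← sum_DD_rpow hp0 hT,
    Finset.mul_sum]
  exact Finset.sum_le_sum fun j _ => avg_DD_le hp hp hT hcard m0 j

end

/-- **the random map**: all moments, and the `p`-th moment from a bound on the error part -/
theorem z_main {p : ℝ} (hp : 1 < p) {V ι : Type} [Fintype V] [Fintype ι] [DecidableEq ι] {T H : ℕ}
    (hT : 0 < T) (hcard : Fintype.card ι ≤ 2 ^ H) (x : V → ι → ℝ)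
    (F : V → Fin (H + 2 * T) × ι → ℝ) (m0 : ℕ) :
    ∃ (M : ℕ) (g : V → Fin M → ℝ), 0 < M ∧
      (∀ u v (r : ℝ), (∑ i, |g u i - g v i| ^ r) / M =
        MO p r T (H + 2 * T) (mj p m0 (H + 2 * T)) m0 (fun k => F u k - F v k)) ∧
      (∀ u v (β : ℝ), 0 ≤ β → (1 / 2) ^ m0 + β ≤ 1 →
        MO p p T (H + 2 * T) (mj p m0 (H + 2 * T)) m0 (EE p T H x F u v) ≤
          (β * nm p (x u - x v)) ^ p →
        (1 - p * ((1 / 2) ^ m0 + β)) * nm p (x u - x v) ^ p ≤ (∑ i, |g u i - g v i| ^ p) / M ∧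
        (∑ i, |g u i - g v i| ^ p) / M ≤
          Real.exp ((1 / 2) ^ m0 * (Real.exp (p - 1) - 1) + p * β) * nm p (x u - x v) ^ p) := by
  classical
  have hp0 : 0 < p := by linarith
  have hJ0 : 0 < H + 2 * T := by omega
  obtain ⟨M, e, hM, hMe⟩ := exists_omega (ι := ι) (H + 2 * T) (2 ^ (mj p m0 (H + 2 * T))) hJ0
    (by positivity)
  have hM0 : (0 : ℝ) < M := by exact_mod_cast hM
  -- the coordinate functional
  set L : (Fin (H + 2 * T) × ι → ℝ) → Fin M → ℝ :=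
    fun Y i => GG p T (H + 2 * T) (mj p m0 (H + 2 * T)) m0 Y (e i).1 (e i).2.1 (e i).2.2 with hL
  have hLsub : ∀ Y Z : Fin (H + 2 * T) × ι → ℝ, L (fun k => Y k - Z k) = L Y - L Z := by
    intro Y Z
    funext i
    exact GG_sub p T (H + 2 * T) (mj p m0 (H + 2 * T)) m0 Y Z _ _ _
  have hmom : ∀ (Y : Fin (H + 2 * T) × ι → ℝ) (r : ℝ), (∑ i, |L Y i| ^ r) / (M : ℝ) = MO p r T (H + 2 * T) (mj p m0 (H + 2 * T)) m0 Y := by
    intro Y r
    rw [← avg_GG hp0 hT (H + 2 * T) (mj p m0 (H + 2 * T)) m0 Y]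
    exact hMe (fun j h e => |GG p T (H + 2 * T) (mj p m0 (H + 2 * T)) m0 Y j h e| ^ r)
  refine ⟨M, fun u => L (F u), hM, ?_, ?_⟩
  · intro u v r
    rw [← hmom, hLsub]
    rfl
  · intro u v β hβ hβ1 hE
    set d := nm p (x u - x v) with hd
    have hFE : (fun k => F u k - F v k) = fun k => DD p T H x u v k - EE p T H x F u v k := by
      funext k
      unfold EE
      ring
    have hA : L (fun k => F u k - F v k) = L (DD p T H x u v) - L (EE p T H x F u v) := by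
      rw [hFE, hLsub]
    have h1 : nm p (L (fun k => F u k - F v k)) ≤
        nm p (L (DD p T H x u v)) + nm p (L (EE p T H x F u v)) := by
      rw [hA, sub_eq_add_neg]
      refine (nm_add_le hp.le _ _).trans ?_
      rw [nm_neg]
    have h2 : nm p (L (DD p T H x u v)) ≤
        nm p (L (fun k => F u k - F v k)) + nm p (L (EE p T H x F u v)) := by
      have h3 : L (DD p T H x u v) = L (fun k => F u k - F v k) + L (EE p T H x F u v) := by
        rw [hA]; simp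
      rw [h3]
      exact nm_add_le hp.le _ _
    have hmom' : ∀ Y : Fin (H + 2 * T) × ι → ℝ, nm p (L Y) ^ p / M = MO p p T (H + 2 * T) (mj p m0 (H + 2 * T)) m0 Y := by
      intro Y
      rw [← hmom Y p, ← nm_pow hp0]
    have hη : (0 : ℝ) ≤ (1 / 2) ^ m0 := by positivity
    have hc : 0 ≤ Real.exp (p - 1) - 1 := by
      have := Real.add_one_le_exp (p - 1)
      linarith
    have h3 := tri_real (M := M) (d := d) (c := Real.exp (p - 1) - 1) hp hM0 (nm_nonneg _)
      (nm_nonneg _) (nm_nonneg _) (nm_nonneg _) hη hβ hβ1 hc h1 h2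
      (by rw [hmom']; exact hE)
      (by rw [hmom']; exact MO_DD_ge hp.le hT hcard m0)
      (by rw [hmom']; exact MO_DD_le hp.le hT hcard m0)
    have h4 : (∑ i, |L (F u) i - L (F v) i| ^ p) / (M : ℝ) =
        nm p (L (fun k => F u k - F v k)) ^ p / M := by
      rw [hmom', ← hmom, hLsub]
      rfl
    rw [h4]
    exact h3

end Vale.Agent.P249.UP
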