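import Vale.Agent.P249.UP.ZBase
import Vale.Agent.P249.UP.S3

/-!
# P249: the random map, `p > 2`: estimates of the error part and of the `2 p`-th moments
-/

set_option linter.all false

open scoped BigOperators

namespace Vale.Agent.P249.UP

open Vale.Agent.P249.H75

namespace ZG

theorem sum_rpow_le {α : Type*} (s : Finset α) (x : α → ℝ) (hx : ∀ a ∈ s, 0 ≤ x a) {q : ℝ}
    (hq : 1 ≤ q) : ∑ a ∈ s, x a ^ q ≤ (∑ a ∈ s, x a) ^ q := by
  have hS : 0 ≤ ∑ a ∈ s, x a := Finset.sum_nonneg hx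
  have h1 : ∀ a ∈ s, x a ^ q ≤ x a * (∑ a ∈ s, x a) ^ (q - 1) := by
    intro a ha
    have h2 : x a ^ q = x a * x a ^ (q - 1) := by
      rcases (hx a ha).eq_or_lt with h0 | h0
      · rw [← h0, Real.zero_rpow (by linarith), zero_mul]
      · conv_rhs => rw [← Real.rpow_one (x a), ← Real.rpow_mul h0.le]
        rw [one_mul, ← Real.rpow_add h0]
        congr 1
        ring
    rw [h2]
    exact mul_le_mul_of_nonneg_left (Real.rpow_le_rpow (hx a ha)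
      (Finset.single_le_sum hx ha) (by linarith)) (hx a ha)
  refine (Finset.sum_le_sum h1).trans ?_
  rw [← Finset.sum_mul]
  rcases hS.eq_or_lt with h0 | h0
  · rw [← h0, zero_mul]
    exact Real.rpow_nonneg le_rfl _
  · conv_lhs => rw [← Real.rpow_one (∑ a ∈ s, x a), ← Real.rpow_mul h0.le]
    rw [one_mul, ← Real.rpow_add h0]
    have : 1 + (q - 1) = q := by ring
    rw [this]

/-- damping factor of band energies -/
noncomputable def kap (p : ℝ) (m0 : ℕ) : ℝ := (2 : ℝ) ^ (-((m0 : ℝ) * (p - 2) / p))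

theorem kap_pos (p : ℝ) (m0 : ℕ) : 0 < kap p m0 := Real.rpow_pos_of_pos (by norm_num) _

theorem kap_le_one {p : ℝ} (hp : 2 < p) (m0 : ℕ) : kap p m0 ≤ 1 := by
  unfold kap
  apply Real.rpow_le_one_of_one_le_of_nonpos (by norm_num)
  have : 0 ≤ (m0 : ℝ) * (p - 2) / p := by
    apply div_nonneg (mul_nonneg (Nat.cast_nonneg _) (by linarith)) (by linarith)
  linarith

theorem omega_pow (p : ℝ) (j : ℕ) : ((2 : ℝ) ^ (2 - p)) ^ j = (2 : ℝ) ^ ((2 - p) * j) := by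
  rw [← Real.rpow_natCast, ← Real.rpow_mul (by norm_num)]

theorem bj_pow_le {p : ℝ} (hp : 2 < p) (m0 j : ℕ) :
    (bj p m0 j) ^ (2 / p - 1) ≤ kap p m0 * ((2 : ℝ) ^ (2 - p)) ^ j := by
  have hp0 : 0 < p := by linarith
  have h1 := bj_ge hp0.le m0 j
  have h2 : (0 : ℝ) < (2 : ℝ) ^ ((j : ℝ) * p) * 2 ^ m0 := by positivity
  have hneg : 2 / p - 1 ≤ 0 := by
    rw [sub_nonpos, div_le_one hp0]
    exact hp.le
  refine (Real.rpow_le_rpow_of_nonpos h2 h1 hneg).trans (le_of_eq ?_)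
  rw [omega_pow]
  unfold kap
  rw [← Real.rpow_natCast (2 : ℝ) m0, ← Real.rpow_add (by norm_num), ← Real.rpow_mul (by norm_num),
    ← Real.rpow_add (by norm_num)]
  congr 1
  field_simp
  ring

section
variable {ι : Type} [Fintype ι] [DecidableEq ι]

/-- energies of the bands -/
theorem band_sq {p : ℝ} (hp : 2 < p) {r : ℝ} (hr : 2 ≤ r) (J m0 : ℕ) (Y : Fin J × ι → ℝ)
    {a : ℝ} (ha : 0 ≤ a)
    (h : ∑ k, ((2 : ℝ) ^ (2 - p)) ^ (k.1 : ℕ) * Y k ^ 2 ≤ a ^ 2) :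
    ∑ j : Fin J, bj p m0 j ^ (r / p) * (1 / bj p m0 j * ∑ i, Y (j, i) ^ 2) ^ (r / 2)
      ≤ kap p m0 ^ (r / 2) * a ^ r := by
  have hX : ∀ j : Fin J, 0 ≤ ∑ i, Y (j, i) ^ 2 := fun j => Finset.sum_nonneg fun i _ => sq_nonneg _
  have h1 : ∀ j : Fin J, bj p m0 j ^ (r / p) * (1 / bj p m0 j * ∑ i, Y (j, i) ^ 2) ^ (r / 2)
      ≤ (kap p m0 * (((2 : ℝ) ^ (2 - p)) ^ (j : ℕ) * ∑ i, Y (j, i) ^ 2)) ^ (r / 2) := by
    intro j
    have hb := bj_pos p m0 j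
    have h2 : bj p m0 j ^ (r / p) * (1 / bj p m0 j * ∑ i, Y (j, i) ^ 2) ^ (r / 2)
        = (bj p m0 j ^ (2 / p - 1) * ∑ i, Y (j, i) ^ 2) ^ (r / 2) := by
      have h3 : bj p m0 j ^ (r / p) = (bj p m0 j ^ (2 / p)) ^ (r / 2) := by
        rw [← Real.rpow_mul hb.le]
        congr 1
        field_simp
      rw [h3, ← Real.mul_rpow (by positivity) (mul_nonneg (by positivity) (hX j))]
      congr 1
      rw [← mul_assoc]
      congr 1
      rw [Real.rpow_sub hb, Real.rpow_one]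
      ring
    rw [h2, ← mul_assoc]
    exact Real.rpow_le_rpow (mul_nonneg (by positivity) (hX j))
      (mul_le_mul_of_nonneg_right (bj_pow_le hp m0 j) (hX j)) (by linarith)
  refine (Finset.sum_le_sum fun j _ => h1 j).trans ?_
  refine (sum_rpow_le _ _ (fun j _ => mul_nonneg (kap_pos _ _).le
    (mul_nonneg (by positivity) (hX j))) (by linarith)).trans ?_
  have h3 : ∑ j : Fin J, kap p m0 * (((2 : ℝ) ^ (2 - p)) ^ (j : ℕ) * ∑ i, Y (j, i) ^ 2)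
      = kap p m0 * ∑ k, ((2 : ℝ) ^ (2 - p)) ^ (k.1 : ℕ) * Y k ^ 2 := by
    rw [← Finset.mul_sum, Fintype.sum_prod_type]
    congr 1
    exact Finset.sum_congr rfl fun j _ => Finset.mul_sum _ _ _
  rw [h3]
  have h4 : a ^ r = (a ^ 2) ^ (r / 2) := by
    rw [← Real.rpow_natCast a 2, ← Real.rpow_mul ha]
    congr 1
    push_cast
    ring
  rw [h4, ← Real.mul_rpow (kap_pos _ _).le (sq_nonneg a)]
  refine Real.rpow_le_rpow (mul_nonneg (kap_pos _ _).le ?_)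
    (mul_le_mul_of_nonneg_left h (kap_pos _ _).le) (by linarith)
  exact Finset.sum_nonneg fun k _ => by positivity

theorem MO_eq {p r : ℝ} (hp : 0 < p) {T : ℕ} (hT : 0 < T) (J K m0 : ℕ) (Y : Fin J × ι → ℝ) :
    MO p r T J K m0 Y = ((J : ℝ) / cT p T) ^ (r / p) / J *
      ∑ j : Fin J, bj p m0 j ^ (r / p) * avg (fun (h : ι → Fin (2 ^ K)) (e : ι → Bool) =>
        |Zs (xiF K (mj p m0 j)) (fun i => Y (j, i)) h e| ^ r) := by
  unfold MO
  rw [div_mul_eq_mul_div, Finset.mul_sum]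
  congr 1
  refine Finset.sum_congr rfl fun j _ => ?_
  rw [← mul_assoc]
  congr 1
  rw [← Real.mul_rpow (div_nonneg (Nat.cast_nonneg _) (cT_pos hp hT).le) (bj_pos _ _ _).le]
  congr 1
  ring

/-- all moments of order `r` in `{p, 2p}`, Rosenthal form -/
theorem MO_le (r : ℝ) (hr : 2 ≤ r) : ∃ C : ℝ, 1 ≤ C ∧ ∀ {p : ℝ}, 2 < p → ∀ {ι : Type} [Fintype ι]
    [DecidableEq ι] {T : ℕ}, 0 < T → ∀ (J K m0 : ℕ), (∀ j : Fin J, mj p m0 j ≤ K) →
    ∀ (Y : Fin J × ι → ℝ) {a s : ℝ}, 0 ≤ a →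
    (∑ k, ((2 : ℝ) ^ (2 - p)) ^ (k.1 : ℕ) * Y k ^ 2 ≤ a ^ 2) →
    (∑ j : Fin J, bj p m0 j ^ (r / p - 1) * ∑ i, |Y (j, i)| ^ r ≤ s) →
    MO p r T J K m0 Y ≤ ((J : ℝ) / cT p T) ^ (r / p) / J * (C * (s + kap p m0 ^ (r / 2) * a ^ r)) := by
  obtain ⟨C, hC1, hC⟩ := samp_s3 r (by linarith)
  refine ⟨C, hC1, ?_⟩
  intro p hp ι _ _ T hT J K m0 hK Y a s ha h2 hs
  have hp0 : 0 < p := by linarith
  rw [MO_eq hp0 hT]
  apply mul_le_mul_of_nonneg_left _ (div_nonneg (Real.rpow_nonneg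
    (div_nonneg (Nat.cast_nonneg _) (cT_pos hp0 hT).le) _) (Nat.cast_nonneg _))
  have h3 : ∀ j : Fin J, bj p m0 j ^ (r / p) * avg (fun (h : ι → Fin (2 ^ K)) (e : ι → Bool) =>
        |Zs (xiF K (mj p m0 j)) (fun i => Y (j, i)) h e| ^ r)
      ≤ C * (bj p m0 j ^ (r / p - 1) * ∑ i, |Y (j, i)| ^ r) +
        C * (bj p m0 j ^ (r / p) * (1 / bj p m0 j * ∑ i, Y (j, i) ^ 2) ^ (r / 2)) := by
    intro j
    have hb := bj_pos p m0 j
    have h4 := hC (ι := ι) (B := 2 ^ K) (by positivity) (xiF K (mj p m0 j))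
      (xiF_zero_one K (mj p m0 j)) (fun i => Y (j, i))
    rw [rate_xiF (hK j)] at h4
    have h5 : (1 : ℝ) / 2 ^ mj p m0 j = 1 / bj p m0 j := rfl
    rw [h5] at h4
    have h6 : bj p m0 j ^ (r / p - 1) = bj p m0 j ^ (r / p) * (1 / bj p m0 j) := by
      rw [Real.rpow_sub hb, Real.rpow_one]
      ring
    calc bj p m0 j ^ (r / p) * avg (fun (h : ι → Fin (2 ^ K)) (e : ι → Bool) =>
          |Zs (xiF K (mj p m0 j)) (fun i => Y (j, i)) h e| ^ r)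
        ≤ bj p m0 j ^ (r / p) * (C * (1 / bj p m0 j * ∑ i, |Y (j, i)| ^ r +
          (1 / bj p m0 j * ∑ i, Y (j, i) ^ 2) ^ (r / 2))) :=
          mul_le_mul_of_nonneg_left h4 (by positivity)
      _ = _ := by rw [h6]; ring
  refine (Finset.sum_le_sum fun j _ => h3 j).trans ?_
  rw [Finset.sum_add_distrib, ← Finset.mul_sum, ← Finset.mul_sum, ← mul_add]
  apply mul_le_mul_of_nonneg_left _ (by linarith)
  exact add_le_add hs (band_sq hp hr J m0 Y ha h2)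

end

end ZG

end Vale.Agent.P249.UP
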