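import Vale.Agent.P249.UP.ZBase2
import Vale.Agent.P249.UP.ZGt1

/-!
# P249: the random map, `p > 2`: moments of the two parts
-/

set_option linter.all false

open scoped BigOperators

namespace Vale.Agent.P249.UP

open Vale.Agent.P249.H75

namespace ZG

theorem cT_ge' {p : ℝ} (hp : 0 < p) {T : ℕ} (hT : 0 < T) : (1 / 2 : ℝ) ^ p ≤ cT p T := by
  refine le_trans ?_ (cT_ge hp hT)
  have h1 : (1 : ℝ) ≤ T := by exact_mod_cast hT
  have h2 : (0 : ℝ) < (1 / 2) ^ p := by positivity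
  nlinarith

theorem inv_cT_le {p : ℝ} (hp : 0 < p) {T : ℕ} (hT : 0 < T) : (cT p T)⁻¹ ≤ (2 : ℝ) ^ p := by
  have h1 := cT_ge' hp hT
  have h2 : ((2 : ℝ) ^ p)⁻¹ = (1 / 2) ^ p := by
    rw [one_div, Real.inv_rpow (by norm_num)]
  rw [inv_le_comm₀ (cT_pos hp hT) (by positivity), h2]
  exact h1

section

/-- error part, `p`-th moment -/
theorem MO_E_p {p : ℝ} (hp : 2 < p) : ∃ C : ℝ, 1 ≤ C ∧ ∀ {ι : Type} [Fintype ι] [DecidableEq ι]
    {T : ℕ}, 0 < T → ∀ (J K m0 : ℕ), (∀ j : Fin J, mj p m0 j ≤ K) → ∀ (Y : Fin J × ι → ℝ)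
    {a₁ a₂ : ℝ}, 0 ≤ a₁ → 0 ≤ a₂ → (∑ k, |Y k| ^ p ≤ cT p T * a₁ ^ p) →
    (∑ k, ((2 : ℝ) ^ (2 - p)) ^ (k.1 : ℕ) * Y k ^ 2 ≤ a₂ ^ 2) →
    MO p p T J K m0 Y ≤ C * (a₁ ^ p + 2 ^ p * kap p m0 ^ (p / 2) * a₂ ^ p) := by
  obtain ⟨C, hC1, hC⟩ := MO_le p hp.le
  refine ⟨C, hC1, ?_⟩
  intro ι _ _ T hT J K m0 hK Y a₁ a₂ ha1 ha2 h1 h2
  have hp0 : 0 < p := by linarith
  have hs : ∑ j : Fin J, bj p m0 j ^ (p / p - 1) * ∑ i, |Y (j, i)| ^ p ≤ cT p T * a₁ ^ p := by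
    rw [div_self hp0.ne', sub_self]
    simp only [Real.rpow_zero, one_mul]
    rw [← Fintype.sum_prod_type (f := fun k => |Y k| ^ p)]
    exact h1
  have h3 := hC hp hT J K m0 hK Y ha2 h2 hs
  refine h3.trans ?_
  have hc := cT_pos hp0 hT
  have hinv := inv_cT_le hp0 hT
  have hkap : 0 ≤ kap p m0 ^ (p / 2) * a₂ ^ p :=
    mul_nonneg (Real.rpow_nonneg (kap_pos _ _).le _) (Real.rpow_nonneg ha2 _)
  have h4 : ((J : ℝ) / cT p T) ^ (p / p) / J ≤ (cT p T)⁻¹ := by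
    rw [div_self hp0.ne', Real.rpow_one]
    rcases Nat.eq_zero_or_pos J with h0 | h0
    · subst h0
      simp only [Nat.cast_zero, zero_div, div_zero]
      positivity
    · have : (J : ℝ) ≠ 0 := by positivity
      apply le_of_eq
      field_simp
  have h5 : 0 ≤ C * (cT p T * a₁ ^ p + kap p m0 ^ (p / 2) * a₂ ^ p) := by
    have : 0 ≤ cT p T * a₁ ^ p := mul_nonneg hc.le (Real.rpow_nonneg ha1 _)
    have h6 : 0 ≤ C := by linarith
    positivity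
  refine (mul_le_mul_of_nonneg_right h4 h5).trans ?_
  have h6 : (cT p T)⁻¹ * (C * (cT p T * a₁ ^ p + kap p m0 ^ (p / 2) * a₂ ^ p))
      = C * (a₁ ^ p + (cT p T)⁻¹ * (kap p m0 ^ (p / 2) * a₂ ^ p)) := by
    field_simp
  rw [h6]
  apply mul_le_mul_of_nonneg_left _ (by linarith)
  have h7 := mul_le_mul_of_nonneg_right hinv hkap
  linarith [mul_assoc ((2 : ℝ) ^ p) (kap p m0 ^ (p / 2)) (a₂ ^ p)]

theorem pref_le {p : ℝ} (hp : 0 < p) {T : ℕ} (hT : 0 < T) (J : ℕ) :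
    ((J : ℝ) / cT p T) ^ (2 * p / p) / J ≤ J * 4 ^ p := by
  have hc := cT_pos hp hT
  have hinv := inv_cT_le hp hT
  have h1 : 2 * p / p = 2 := by field_simp
  rw [h1, Real.rpow_two]
  rcases Nat.eq_zero_or_pos J with h0 | h0
  · subst h0
    simp
  · have hJ : (0 : ℝ) < J := by exact_mod_cast h0
    have h2 : ((J : ℝ) / cT p T) ^ 2 / J = J * ((cT p T)⁻¹ ^ 2) := by
      field_simp
    rw [h2]
    apply mul_le_mul_of_nonneg_left _ hJ.le
    have h3 : (4 : ℝ) ^ p = ((2 : ℝ) ^ p) ^ 2 := by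
      rw [← Real.rpow_natCast, ← Real.rpow_mul (by norm_num), mul_comm, Real.rpow_mul (by norm_num)]
      norm_num
    rw [h3]
    exact pow_le_pow_left₀ (inv_nonneg.2 hc.le) hinv 2

/-- error part, `2 p`-th moment -/
theorem MO_E_2p {p : ℝ} (hp : 2 < p) : ∃ C : ℝ, 1 ≤ C ∧ ∀ {ι : Type} [Fintype ι] [DecidableEq ι]
    {T : ℕ}, 0 < T → ∀ (J K m0 : ℕ), (∀ j : Fin J, mj p m0 j ≤ K) → ∀ (Y : Fin J × ι → ℝ)
    {a₂ a₃ : ℝ}, 0 ≤ a₂ → 0 ≤ a₃ →
    (∑ k, ((2 : ℝ) ^ (2 - p)) ^ (k.1 : ℕ) * Y k ^ 2 ≤ a₂ ^ 2) →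
    (∑ k, ((2 : ℝ) ^ (2 * p - p)) ^ (k.1 : ℕ) * |Y k| ^ (2 * p) ≤ a₃ ^ (2 * p)) →
    MO p (2 * p) T J K m0 Y ≤
      J * 4 ^ p * (C * (2 * 2 ^ m0 * a₃ ^ (2 * p) + a₂ ^ (2 * p))) := by
  obtain ⟨C, hC1, hC⟩ := MO_le (2 * p) (by linarith)
  refine ⟨C, hC1, ?_⟩
  intro ι _ _ T hT J K m0 hK Y a₂ a₃ ha2 ha3 h2 h3
  have hp0 : 0 < p := by linarith
  have hs : ∑ j : Fin J, bj p m0 j ^ (2 * p / p - 1) * ∑ i, |Y (j, i)| ^ (2 * p)
      ≤ 2 * 2 ^ m0 * a₃ ^ (2 * p) := by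
    have h1 : 2 * p / p - 1 = 1 := by field_simp; norm_num
    rw [h1]
    simp only [Real.rpow_one]
    calc ∑ j : Fin J, bj p m0 j * ∑ i, |Y (j, i)| ^ (2 * p)
        ≤ ∑ j : Fin J, (2 * 2 ^ m0 * ((2 : ℝ) ^ (2 * p - p)) ^ (j : ℕ)) *
            ∑ i, |Y (j, i)| ^ (2 * p) := by
          apply Finset.sum_le_sum
          intro j _
          apply mul_le_mul_of_nonneg_right _ (Finset.sum_nonneg fun i _ => by positivity)
          have h4 := bj_le hp0.le m0 (j : ℕ)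
          have h5 : ((2 : ℝ) ^ (2 * p - p)) ^ (j : ℕ) = (2 : ℝ) ^ (((j : ℕ) : ℝ) * p) := by
            rw [← Real.rpow_natCast, ← Real.rpow_mul (by norm_num)]
            congr 1
            ring
          rw [h5]
          exact h4
      _ = 2 * 2 ^ m0 * ∑ k, ((2 : ℝ) ^ (2 * p - p)) ^ (k.1 : ℕ) * |Y k| ^ (2 * p) := by
          rw [Fintype.sum_prod_type, Finset.mul_sum]
          apply Finset.sum_congr rfl
          intro j _
          rw [mul_assoc]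
          congr 1
          exact Finset.mul_sum _ _ _
      _ ≤ _ := mul_le_mul_of_nonneg_left h3 (by positivity)
  have h4 := hC hp hT J K m0 hK Y ha2 h2 hs
  refine h4.trans ?_
  have hC0 : 0 ≤ C := by linarith
  have h5 : kap p m0 ^ (2 * p / 2) * a₂ ^ (2 * p) ≤ a₂ ^ (2 * p) := by
    have h6 : kap p m0 ^ (2 * p / 2) ≤ 1 :=
      Real.rpow_le_one (kap_pos _ _).le (kap_le_one hp m0) (by linarith)
    have h7 : 0 ≤ a₂ ^ (2 * p) := Real.rpow_nonneg ha2 _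
    nlinarith
  have h8 : 0 ≤ kap p m0 ^ (2 * p / 2) * a₂ ^ (2 * p) :=
    mul_nonneg (Real.rpow_nonneg (kap_pos _ _).le _) (Real.rpow_nonneg ha2 _)
  have h9 : 0 ≤ a₃ ^ (2 * p) := Real.rpow_nonneg ha3 _
  refine mul_le_mul (pref_le hp0 hT J) ?_ ?_ (by positivity)
  · exact mul_le_mul_of_nonneg_left (by linarith) hC0
  · positivity

end

section
variable {V ι : Type} [Fintype ι] [DecidableEq ι] {p : ℝ} {T H : ℕ} {x : V → ι → ℝ} {u v : V}

/-- main part, `2 p`-th moment -/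
theorem MO_D_2p (hp : 2 < p) (hT : 0 < T) (hcard : Fintype.card ι ≤ 2 ^ H) (m0 : ℕ) :
    MO p (2 * p) T (H + 2 * T) (mj p m0 (H + 2 * T)) m0 (DD p T H x u v) ≤
      ((H + 2 * T : ℕ) : ℝ) * 2 ^ p * (Real.exp (Real.exp (2 * p - 1) - 1) *
        (2 * 2 ^ m0 * (4 ^ T) ^ p * nm p (x u - x v) ^ (2 * p))) := by
  have hp0 : 0 < p := by linarith
  set d := nm p (x u - x v) with hd
  have hd0 : 0 ≤ d := nm_nonneg _
  set E0 : ℝ := Real.exp (Real.exp (2 * p - 1) - 1) with hE0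
  have hE0' : 0 < E0 := Real.exp_pos _
  rw [MO_eq hp0 hT]
  have hc := cT_pos hp0 hT
  have hexp1 : 0 ≤ Real.exp (2 * p - 1) - 1 := by
    have := Real.add_one_le_exp (2 * p - 1); linarith
  have h1 : ∀ j : Fin (H + 2 * T), bj p m0 j ^ (2 * p / p) *
      avg (fun (h : ι → Fin (2 ^ (mj p m0 (H + 2 * T)))) (e : ι → Bool) =>
        |Zs (xiF (mj p m0 (H + 2 * T)) (mj p m0 j)) (fun i => DD p T H x u v (j, i)) h e| ^ (2 * p))
      ≤ E0 * (2 * 2 ^ m0 * (4 ^ T) ^ p * d ^ p * ∑ i, |DD p T H x u v (j, i)| ^ p) := by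
    intro j
    have hb := bj_pos p m0 (j : ℕ)
    have h2 := avg_DD_le (x := x) (u := u) (v := v) (r := 2 * p) (by linarith) (by linarith : 1 ≤ p)
      hT hcard m0 j
    have h3 : Real.exp ((1 / 2) ^ m0 * (Real.exp (2 * p - 1) - 1)) ≤ E0 := by
      apply Real.exp_le_exp.2
      have : ((1 : ℝ) / 2) ^ m0 ≤ 1 := pow_le_one₀ (by norm_num) (by norm_num)
      nlinarith
    have h4 : bj p m0 j ^ (2 * p / p) = bj p m0 j * bj p m0 j := by
      have : 2 * p / p = 2 := by field_simp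
      rw [this, Real.rpow_two, sq]
    rw [h4, mul_assoc]
    have h5 : bj p m0 j * (bj p m0 j *
        avg (fun (h : ι → Fin (2 ^ (mj p m0 (H + 2 * T)))) (e : ι → Bool) =>
        |Zs (xiF (mj p m0 (H + 2 * T)) (mj p m0 j)) (fun i => DD p T H x u v (j, i)) h e| ^ (2 * p)))
        ≤ bj p m0 j * (E0 * ∑ i, |DD p T H x u v (j, i)| ^ (2 * p)) := by
      apply mul_le_mul_of_nonneg_left _ hb.le
      refine h2.trans (mul_le_mul_of_nonneg_right h3 ?_)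
      exact Finset.sum_nonneg fun i _ => by positivity
    refine h5.trans ?_
    rw [mul_left_comm]
    apply mul_le_mul_of_nonneg_left _ hE0'.le
    rw [Finset.mul_sum, Finset.mul_sum]
    apply Finset.sum_le_sum
    intro i _
    have h6 := DD_small (x := x) (u := u) (v := v) hp0 hT (j, i)
    have h7 : |DD p T H x u v (j, i)| ^ (2 * p) =
        |DD p T H x u v (j, i)| ^ p * |DD p T H x u v (j, i)| ^ p := by
      rcases (abs_nonneg (DD p T H x u v (j, i))).eq_or_lt with h0 | h0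
      · rw [← h0, Real.zero_rpow (by linarith), Real.zero_rpow hp0.ne', mul_zero]
      · rw [← Real.rpow_add h0]
        congr 1
        ring
    have h8 : |DD p T H x u v (j, i)| ^ p ≤ (4 ^ T * (1 / 2) ^ (j : ℕ) * d) ^ p :=
      Real.rpow_le_rpow (abs_nonneg _) h6 hp0.le
    have h9 : (4 ^ T * (1 / 2) ^ (j : ℕ) * d) ^ p
        = (4 ^ T : ℝ) ^ p * (((1 / 2 : ℝ) ^ (j : ℕ)) ^ p) * d ^ p := by
      rw [Real.mul_rpow (by positivity) hd0, Real.mul_rpow (by positivity) (by positivity)]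
    have h10 : (2 : ℝ) ^ (((j : ℕ) : ℝ) * p) * (((1 / 2 : ℝ) ^ (j : ℕ)) ^ p) = 1 := by
      rw [Real.rpow_mul (by norm_num : (0:ℝ) ≤ 2), Real.rpow_natCast,
        ← Real.mul_rpow (by positivity) (by positivity), ← mul_pow]
      norm_num
    have h11 := bj_le hp0.le m0 (j : ℕ)
    have hD : 0 ≤ |DD p T H x u v (j, i)| ^ p := by positivity
    have hdp : 0 ≤ d ^ p := Real.rpow_nonneg hd0 _
    calc bj p m0 j * |DD p T H x u v (j, i)| ^ (2 * p)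
        ≤ (2 * 2 ^ m0 * (2 : ℝ) ^ (((j : ℕ) : ℝ) * p)) *
            (|DD p T H x u v (j, i)| ^ p * ((4 ^ T : ℝ) ^ p * (((1 / 2 : ℝ) ^ (j : ℕ)) ^ p) * d ^ p)) := by
          rw [h7]
          refine mul_le_mul h11 ?_ (by positivity) (by positivity)
          exact mul_le_mul_of_nonneg_left (h8.trans h9.le) hD
      _ = 2 * 2 ^ m0 * (4 ^ T) ^ p * d ^ p * |DD p T H x u v (j, i)| ^ p *
            ((2 : ℝ) ^ (((j : ℕ) : ℝ) * p) * (((1 / 2 : ℝ) ^ (j : ℕ)) ^ p)) := by ring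
      _ = _ := by rw [h10, mul_one]
  have h2 : ∑ j : Fin (H + 2 * T), bj p m0 j ^ (2 * p / p) *
      avg (fun (h : ι → Fin (2 ^ (mj p m0 (H + 2 * T)))) (e : ι → Bool) =>
        |Zs (xiF (mj p m0 (H + 2 * T)) (mj p m0 j)) (fun i => DD p T H x u v (j, i)) h e| ^ (2 * p))
      ≤ E0 * (2 * 2 ^ m0 * (4 ^ T) ^ p * d ^ p * (cT p T * d ^ p)) := by
    refine (Finset.sum_le_sum fun j _ => h1 j).trans (le_of_eq ?_)
    rw [← Finset.mul_sum, ← Finset.mul_sum, sum_DD_rpow hp0 hT]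
  have hpref : ((((H + 2 * T : ℕ) : ℝ)) / cT p T) ^ (2 * p / p) / ((H + 2 * T : ℕ) : ℝ)
      = ((H + 2 * T : ℕ) : ℝ) * (cT p T)⁻¹ ^ 2 := by
    have h3 : 2 * p / p = 2 := by field_simp
    rw [h3, Real.rpow_two]
    have hJ : (0 : ℝ) < ((H + 2 * T : ℕ) : ℝ) := by
      have : 0 < H + 2 * T := by omega
      exact_mod_cast this
    field_simp
  rw [hpref]
  have hJ0 : (0 : ℝ) ≤ ((H + 2 * T : ℕ) : ℝ) := Nat.cast_nonneg _
  refine (mul_le_mul_of_nonneg_left h2 (by positivity)).trans ?_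
  have h3 : d ^ (2 * p) = d ^ p * d ^ p := by
    rcases hd0.eq_or_lt with h0 | h0
    · rw [← h0, Real.zero_rpow (by linarith), Real.zero_rpow hp0.ne', mul_zero]
    · rw [← Real.rpow_add h0]
      congr 1
      ring
  rw [h3]
  have h4 : ((H + 2 * T : ℕ) : ℝ) * (cT p T)⁻¹ ^ 2 *
      (E0 * (2 * 2 ^ m0 * (4 ^ T) ^ p * d ^ p * (cT p T * d ^ p)))
      = (((H + 2 * T : ℕ) : ℝ) * (E0 * (2 * 2 ^ m0 * (4 ^ T) ^ p * (d ^ p * d ^ p)))) *
        (cT p T)⁻¹ := by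
    field_simp
  rw [h4]
  have hdp : 0 ≤ d ^ p := Real.rpow_nonneg hd0 _
  refine (mul_le_mul_of_nonneg_left (inv_cT_le hp0 hT) (by positivity)).trans (le_of_eq ?_)
  ring

end

/-- convexity for the moment functional -/
theorem MO_sub_le {ι : Type} [Fintype ι] [DecidableEq ι] {p r : ℝ} (hr : 1 ≤ r) {T : ℕ} (hp : 0 < p)
    (hT : 0 < T) (J K m0 : ℕ) (Y Z : Fin J × ι → ℝ) :
    MO p r T J K m0 (fun k => Y k - Z k) ≤
      2 ^ (r - 1) * (MO p r T J K m0 Y + MO p r T J K m0 Z) := by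
  have hr0 : 0 < r := by linarith
  have hconv : ∀ a b : ℝ, |a - b| ^ r ≤ 2 ^ (r - 1) * (|a| ^ r + |b| ^ r) := by
    intro a b
    have h1 := Real.rpow_sum_le_const_mul_sum_rpow_of_nonneg (Finset.univ : Finset (Fin 2))
      (f := ![|a|, |b|]) hr (by intro i _; fin_cases i <;> simp)
    simp only [Fin.sum_univ_two, Matrix.cons_val_zero, Matrix.cons_val_one, Finset.card_univ,
      Fintype.card_fin, Nat.cast_ofNat] at h1
    exact (Real.rpow_le_rpow (abs_nonneg _) (abs_sub a b) hr0.le).trans h1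
  unfold MO
  rw [← add_div, ← mul_div_assoc]
  apply div_le_div_of_nonneg_right _ (Nat.cast_nonneg _)
  rw [← Finset.sum_add_distrib, Finset.mul_sum]
  apply Finset.sum_le_sum
  intro j _
  have h0 : 0 ≤ ((J : ℝ) * bj p m0 j / cT p T) ^ (r / p) := Real.rpow_nonneg
    (div_nonneg (mul_nonneg (Nat.cast_nonneg _) (bj_pos _ _ _).le) (cT_pos hp hT).le) _
  rw [← mul_add, mul_left_comm, ← avg_add]
  apply mul_le_mul_of_nonneg_left _ h0
  rw [← avg_const_mul]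
  apply avg_mono
  intro h e
  have h1 : Zs (xiF K (mj p m0 j)) (fun i => Y (j, i) - Z (j, i)) h e =
      Zs (xiF K (mj p m0 j)) (fun i => Y (j, i)) h e -
      Zs (xiF K (mj p m0 j)) (fun i => Z (j, i)) h e := Zs_sub _ _ _ _ _
  rw [h1]
  exact hconv _ _

end ZG

end Vale.Agent.P249.UP
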